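import Vale.Agent.P236JX.Tr

/-!
# P236JX / Emit : chains of checks, with statements for a nearby resolution
-/

noncomputable section

namespace Vale.Agent.P236JX

open MvPolynomial Vale.Agent.P236EL Vale.Agent.P236KE Vale.Agent.P236K2 Vale.Agent.P236K3
  Vale.Agent.P236JF Vale.Agent.P236JR Vale.Agent.P236J3 Vale.Agent.P236F Vale.Agent.P251.F
  Vale.Agent.P236SY AddSubgroup

/-- a step of a chain: a level, four windows, lists of terms with their levels -/
structure Sg : Type where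
  a : Nat
  c : CN
  c1 : CN
  cb : CN
  c2 : CN
  ls : List (Nat × List Tr)

namespace JD

variable (E : JD) (s T : Nat)

def em1 (b i : Nat) (r : Bool) : Bool :=
  grd (Nat.ble (Nat.succ T) (Nat.add b ((E.D.L s).dg i))) r
/-- there are no monomials in the ideal -/
def em (c : CN) : Bool := E.bn s T (c.all fun x => loop (E.em1 s T x.2) (E.D.L s).n true)

def st3 (m a b d : Nat) : Bool :=
  E.ge s T [(nat_lit 3, a)] [(nat_lit 6, b)] [(nat_lit 0, m)] [(nat_lit 3, d)] []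
def st2 (m a b : Nat) : Bool := force (Nat.succ a) (E.st3 s T m a b)
def st1 (m a : Nat) : Bool := force (Nat.add a (nat_lit 3)) (E.st2 s T m a)
/-- one step for multiples of the cube of `v_1` -/
def st (i m : Nat) : Bool := force (Nat.add i (nat_lit 3)) (E.st1 s T m)
def ht2 (r : Bool) (i : Nat) : Bool := grd (force (Nat.succ i) (E.st s T i)) r
def ht1 (lo j : Nat) (r : Bool) : Bool := force (Nat.add lo j) (E.ht2 s T r)
/-- a part of the chain -/
def htC (lo n : Nat) : Bool := loop (E.ht1 s T lo) n true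
/-- the chain up to the top -/
def htA (lo n : Nat) : Bool := grd (E.em s T [(3, lo + n + 3)]) (E.htC s T lo n)

def sx2 (m : Nat) (r : Bool) (i : Nat) : Bool := grd (E.st s T i m) r
def sx1 (k m j : Nat) (r : Bool) : Bool := force (Nat.add k j) (E.sx2 s T m r)
def ex3 (k p : Nat) (l : List Tr) (m s' b : Nat) : Bool :=
  grd (E.cl s T [(nat_lit 0, k)] [(nat_lit 3, b)] [(nat_lit 0, m)] l)
    (grd (Nat.ble (nat_lit 1) p) (loop (E.sx1 s' T k m) (Nat.pred p) true))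
def ex2 (k p : Nat) (l : List Tr) (m s' : Nat) : Bool :=
  force (Nat.add k (nat_lit 3)) (E.ex3 s T k p l m s')
def ex1 (k p : Nat) (l : List Tr) (m : Nat) : Bool := force (Nat.succ s) (E.ex2 s T k p l m)
/-- existence of a class with given terms in the levels from `k` to `k + p` -/
def exC (k p : Nat) (l : List Tr) : Bool := force (Nat.add k p) (E.ex1 s T k p l)

/-- the levels of the lists fit the windows -/
def sgL (g : Sg) : Bool := g.ls.all fun x =>
  grd (Nat.ble g.a x.1) (grd (Le [(0, x.1 - 2)] g.cb) (Le [(0, x.1 + 1)] g.c2))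
/-- the chain goes on -/
def sgN (g : Sg) (t : List Sg) : Bool :=
  (t.any fun g' => grd (Nat.ble g.a g'.a) (Le g.c2 g'.c)) || E.em s T g.c2
def hg1 (g : Sg) (t : List Sg) (r : Bool) : Bool := grd (sgL g) (grd (E.sgN s T g t)
  (grd (E.ge s T g.c g.c1 g.cb g.c2 (g.ls.map Prod.snd)) r))
/-- a chain for generators -/
def hgC (sg : List Sg) : Bool := List.rec (motive := fun _ => Bool) true (E.hg1 s T) sg

/-- independence modulo a list -/
def idM (c c' : CN) (gh ls : List (List Tr)) : Bool := List.rec (motive := fun _ => Bool) true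
  (fun l ls r => grd (E.nm s T c c' (List.append ls gh) l) r) ls
def nx3 (k : Nat) (re gh : List (List Tr)) (a b d : Nat) : Bool :=
  grd (E.ge s T [(nat_lit 0, k)] [(nat_lit 3, d)] [(nat_lit 0, a)] [(nat_lit 0, b)]
    (List.append re gh)) (E.idM s T [(nat_lit 0, nat_lit 0)]
      [(nat_lit 3, nat_lit 3), (nat_lit 0, b)] gh re)
def nx2 (k : Nat) (re gh : List (List Tr)) (a b : Nat) : Bool :=
  force (Nat.add k (nat_lit 3)) (E.nx3 s T k re gh a b)
def nx1 (k : Nat) (re gh : List (List Tr)) (a : Nat) : Bool :=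
  force (Nat.succ k) (E.nx2 s T k re gh a)
/-- leading terms of coboundaries -/
def nxC (k : Nat) (re gh : List (List Tr)) : Bool :=
  force (Nat.sub k (nat_lit 2)) (E.nx1 s T k re gh)

def z4 (k1 k3 i1 i3 i4 i6 : Nat) : Bool :=
  E.ge s T [(nat_lit 0, k1), (nat_lit 3, i3)] [(nat_lit 3, k3), (nat_lit 6, i6)] [(nat_lit 0, i1)]
    [(nat_lit 0, k1), (nat_lit 3, i4)] []
def z3 (k a j : Nat) (r : Bool) : Bool :=
  grd (force (k + 1) fun k1 => force (k + 3) fun k3 => force (a + j + 1) fun i1 =>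
    force (a + j + 3) fun i3 => force (a + j + 4) fun i4 => force (a + j + 6)
      (E.z4 s T k1 k3 i1 i3 i4)) r
/-- the list consists of the leading terms of a coboundary which comes from level `a` -/
def zC (k a : Nat) (g : List Tr) : Bool :=
  grd (Nat.ble (a + 2) k) (grd (E.mb s T [(0, a)] [(0, k + 1), (3, a + 3)] [] g)
    (grd (E.cl s T [(0, k)] [(3, k + 3)] [(0, k + 1)] g) (loop (E.z3 s T k a) (k - (a + 2)) true)))

end JD

theorem loop_grd {g : ℕ → Bool → Bool} {p : ℕ → Prop} {n : ℕ}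
    (hg : ∀ j r, g j r = true → p j ∧ r = true) (h : loop g n true = true) : ∀ j < n, p j := by
  induction n with
  | zero => exact fun _ h => nomatch h
  | succ n ih =>
    intro j hj
    exact (Nat.lt_succ_iff_lt_or_eq.1 hj).elim (ih (hg _ _ h).2 j) (· ▸ (hg _ _ h).1)

variable [Fact (Nat.Prime 3)] {G : ℕ → Type} [∀ q, Fintype (G q)] (R : Rs 3 K G)
  (θ : G 0 → G 0 → Cob Laz 1) (s T : ℕ)

/-- coboundaries which are multiples of the cube of `v_1` come from high filtration -/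
def HI (lo : ℕ) : Prop := ∀ i, lo ≤ i → HT R θ s T [(3, i + 3)] [(0, i + 1)] []

variable {R θ s T} {r : Rs 3 K G} {ix : ∀ q, G (q + 1) → ℕ} {c c' c1 c2 cb m n : CN}
  {l : List Tr} {ls gh re : List (List Tr)} {x : G 0 → Cob Laz s}
  {𝒵 : AddSubgroup (G 0 → Cob Laz s)} {P : (G 0 → Cob Laz s) → Prop} {a i k p lo N : ℕ}

theorem HI.mono (h : HI R θ s T lo) (h' : lo ≤ k) : HI R θ s T k := fun i hi => h i (h'.trans hi)

variable [DecidableEq (G 0)] {E : JD} {Tm s3 s4 : ℕ}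

namespace WxJ

variable (H : WxJ R θ E ix Tm s3 s4)

include H

theorem emp {𝒳 : AddSubgroup (G 0 → Cob Laz s)} (hX : Xs R θ T 𝒳 ⊥) (hc : E.em s T c' = true)
    (hl : Le c c' = true) (hP : Cq (BF p3 θ (R.deg 0) T (mI c) s) P) (h : Ax 𝒳 ⊥ P) :
    Ax 𝒳 (mI c) P := by
  obtain ⟨h1, -, h2, h3⟩ := H.bn hc
  have h4 : ∀ n, Inv 3 (mI c * Jr K 3 ^ n) := fun n => (inv_mI c).mul (H.wd.ok.inv.pow n)
  suffices h5 : ∀ n, Ax 𝒳 (mI c * Jr K 3 ^ n) P → Ax 𝒳 (mI c) P from h5 (T + 1)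
    (H.wd.ax_top hX (n := T + 1) (by omega) (Ideal.mul_le_right.trans (Ideal.pow_right_mono
      (by simpa [mI_pow] using j_le (c := [(0, 1)]) rfl) _)) h)
  intro n
  induction n with
  | zero => simp
  | succ n ih =>
    refine fun h5 => ih fun x hx hx' => H.wd.ax_zero h2 h1.le hX (h4 n) (h4 _)
      (by rw [pow_succ, mul_assoc]) bot_le (hP.mono (BF_mono p3 _ _ _ Ideal.mul_le_left _)) h5 hx ?_
    have h6 := (H.cx.pa (add_zero _).symm).1 (Ph_mem (R := R) (inv_mI c') (hX.le hx).1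
      (Fl_mono p3 (Ideal.mul_le_left.trans (Le.mI hl)) hx'))
    refine (funext fun w => MvPolynomial.ext _ _ fun J => by_contra fun h7 => ?_ :
      Ph p3 R s x = 0) ▸ RJ.self (hX.le hx).1 hx'
    obtain ⟨z, hz, -, h8⟩ := inU_iff.1 (h6.2 w J h7)
    have h9 := Nat.le_of_ble_eq_true (loop_grd (g := E.em1 s T z.2) (fun _ _ => grd_spec)
      (List.all_eq_true.1 h3 z hz) _ ((H.cx.ok s).lt w))
    have h10 := h6.1 w J h7
    have h11 : lenM J ≤ wtM J := by
      rw [lenM, wtM, Finsupp.weight_apply, Finsupp.weight_apply]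
      exact Finset.sum_le_sum fun i _ => Nat.mul_le_mul_left _ (wt_pos 3 i)
    change T + 1 ≤ z.2 + _ at h9
    omega

theorem htEm (hc : E.em s T c' = true) (hl : Le c c' = true) (hm : Le c m = true) :
    HT R θ s T c m n :=
  H.emp H.wd.xsB hc hl (.mem ((BF_mono p3 _ _ _ (Le.mI hm) _).trans le_sup_left))
    fun _ _ hx => mem_sup_right (Fl_mono p3 bot_le hx)

theorem hgEm (hc : E.em s T c = true) : HG R θ T c 𝒵 :=
  H.emp H.wd.xsZ hc (Le.refl _) (.mem (WdJ.bf_bq.trans le_sup_right))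
    fun _ hx hx' => mem_sup_right (H.wd.zc_bot' hx hx')

theorem st {m : ℕ} (hc : E.st s T i m = true) (h : HT R θ s T [(3, i + 4)] [(0, m)] []) :
    HT R θ s T [(3, i + 3)] [(0, m)] [] := by
  rw [JD.st, force_eq, JD.st1, force_eq, JD.st2, force_eq, JD.st3] at hc
  exact H.htStep _ _ hc (Le.refl _) h

theorem hiTop (h : T < lo + 3) : HI R θ s T lo :=
  fun i hi => H.htTop (by simp [Le, inU_one]; omega)

theorem hiEm (h : E.em s T [(3, lo + 3)] = true) : HI R θ s T lo := fun i hi =>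
  H.htEm h (by simp [Le, inU_one]; omega) (by simp [Le, inU_one])

/-- **a chain for multiples of the cube of `v_1`** -/
theorem ht (hc : E.htC s T lo N = true) (h : HI R θ s T (lo + N)) : HI R θ s T lo := by
  have h1 := loop_grd (g := E.ht1 s T lo) (p := fun j => E.st s T (lo + j) (lo + j + 1) = true)
    (fun _ _ h => by
      rw [JD.ht1, force_eq, JD.ht2, force_eq] at h
      exact grd_spec h) hc
  clear hc
  induction N with
  | zero => exact h
  | succ N ih =>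
    refine ih (fun i hi => hi.eq_or_lt.elim (fun e => e ▸ ?_) (h i)) fun j hj => h1 j (by omega)
    exact H.st (h1 N N.lt_succ_self) ((h _ le_rfl).mono (Le.refl _) (by simp [Le, inU_one]) rfl)

theorem hi (hc : E.htA s T lo N = true) : HI R θ s T lo := by
  rw [JD.htA] at hc
  exact H.ht (grd_spec hc).2 (H.hiEm (grd_spec hc).1)

theorem exJ (hc : E.exC s T k p l = true) (h : HI R θ (s + 1) T lo) (hlo : lo < k + p) :
    s < E.Q ∧ p ≤ 3 ∧ ∃ x, RL R θ ix s T [(0, k)] [(0, k + p)] x l := by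
  rw [JD.exC, force_eq, JD.ex1, force_eq, JD.ex2, force_eq, JD.ex3] at hc
  obtain ⟨h1, h2⟩ := grd_spec hc
  obtain ⟨h2, h3⟩ := grd_spec h2
  obtain ⟨p, rfl⟩ := Nat.exists_eq_add_of_le' (show 1 ≤ p from Nat.le_of_ble_eq_true h2)
  have h4 := loop_grd (g := E.sx1 (s + 1) T k (k + (p + 1)))
    (p := fun j => E.st (s + 1) T (k + j) (k + (p + 1)) = true) (fun _ _ h => by
      rw [JD.sx1, force_eq, JD.sx2] at h
      exact grd_spec h) h3
  have h5 : ∀ j ≤ p, HT R θ (s + 1) T [(3, k + j + 3)] [(0, k + (p + 1))] [] := fun j hj => by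
    induction hj using Nat.decreasingInduction with
    | self => exact h _ (by omega)
    | of_succ j hj ih => exact H.st (h4 j hj) ih
  refine ⟨(H.cl h1).1, ?_, H.exC (H.exN _ _ _ h1 (by simp [Le, inU_one]) (Le.refl _) (Le.refl _)
    (h5 0 p.zero_le))⟩
  rw [JD.cl, force_eq] at h1
  simpa [Le, inU_one] using (grd_spec (grd_spec (grd_spec (H.bn h1).2.2.2).2).2).1

theorem hgJ {sg : List Sg} (hc : E.hgC s T sg = true)
    (hl : ∀ g ∈ sg, ∀ x ∈ g.ls, a ≤ x.1 → s < E.Q →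
      vL (ix s) x.2 ∈ Sp R θ (x.1 - 2) (x.1 + 1) T 𝒵) : ∀ g ∈ sg, a ≤ g.a → HG R θ T g.c 𝒵 := by
  induction sg with
  | nil => exact fun _ h => nomatch h
  | cons g t ih =>
    change E.hg1 s T g t (E.hgC s T t) = true at hc
    rw [JD.hg1] at hc
    obtain ⟨h1, h2⟩ := grd_spec hc
    obtain ⟨h2, h3⟩ := grd_spec h2
    obtain ⟨h3, h4⟩ := grd_spec h3
    have h5 := ih h4 fun g hg => hl g (List.mem_cons_of_mem _ hg)
    refine List.forall_mem_cons.2 ⟨fun ha => H.hgStep _ _ _ h3 (fun _ hm => ?_) ?_, h5⟩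
    · obtain ⟨x, hx, rfl⟩ := List.mem_map.1 hm
      obtain ⟨h6, h7⟩ := grd_spec (List.all_eq_true.1 h1 x hx)
      exact Sp_le_SpJ (mI_pow _ ▸ Le.mI (grd_spec h7).1) (mI_pow _ ▸ Le.mI (grd_spec h7).2)
        (hl g List.mem_cons_self x hx (ha.trans (Nat.le_of_ble_eq_true h6)) (H.ge h3).1)
    · rcases Bool.or_eq_true _ _ ▸ h2 with h6 | h6
      · obtain ⟨g', h7, h8⟩ := List.any_eq_true.1 h6
        exact (h5 g' h7 (ha.trans (Nat.le_of_ble_eq_true (grd_spec h8).1))).le (grd_spec h8).2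
      · exact H.hgEm h6

/-- **independence modulo a list** -/
theorem idM {u : G (s + 1) → A} (hc : E.idM s T c c' gh ls = true) (hu : u ∈ spn (ix s) ls)
    (hb : u ∈ spn (ix s) gh ⊔ R.BdJ s T (mI c) (mI c')) : u = 0 := by
  induction ls with
  | nil => exact mem_bot.1 hu
  | cons m ls ih =>
    obtain ⟨h1, h2⟩ := grd_spec hc
    have h3 := (H.nm h1).2.2.2
    have h4 : ∀ z ∈ spn (ix s) ls, u - z ∈ _ := fun z hz => sub_mem (sup_le_sup_right
      (spn_le fun _ h => mem_spn (List.mem_append_right ls h)) _ hb)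
      (mem_sup_left (spn_le (fun _ h => mem_spn (List.mem_append_left gh h)) hz))
    obtain ⟨z, hz, rfl | rfl | rfl⟩ := spn_cons hu
    · exact ih h2 hz
    · exact (h3 (by simpa using h4 z hz)).elim
    · refine (h3 ?_).elim
      have h5 := nsmul_mem (h4 z hz) 2
      have h6 : (3 : ℕ) • vL (ix s) m = 0 := funext fun g => by
        rw [Pi.smul_apply, nsmul_eq_mul]
        exact mul_eq_zero_of_left (CharP.cast_eq_zero A 3) _
      rwa [add_sub_cancel_right, vL_twL, ← mul_nsmul', show 2 * 2 = 3 + 1 from rfl, add_nsmul, h6,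
        zero_add, one_nsmul] at h5

theorem nxJ (hc : E.nxC s T k re gh = true) (hx : x ∈ BQ 3 θ (R.deg 0) T 3 s)
    (hx' : x ∈ Fl p3 _ s (II 3 K ^ k)) :
    s < E.Q ∧ Ph p3 R s x ∈ spn (ix s) gh ⊔ R.Bd s T (k - 2) (k + 1) := by
  rw [JD.nxC, force_eq, JD.nx1, force_eq, JD.nx2, force_eq, JD.nx3] at hc
  obtain ⟨h1, h2⟩ := grd_spec hc
  obtain ⟨h3, h4, h5, -, -, h6⟩ := H.ge h1
  obtain ⟨_, h7, e, he, h8⟩ := mem_sup.1 (h6 (H.wd.ph_cy h4 h3 (inv_mI _) (inv_mI _) h5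
    (H.wd.bz hx).1 (mI_pow k ▸ hx') (ZC_DD_Fl (H.wd.bz hx) _)))
  obtain ⟨u, hu, g, hg, rfl⟩ := mem_sup.1 (spn_append h7)
  have h9 := sub_mem (mem_sup_right (S := spn (ix s) gh) (sub_mem (mI_top ▸ H.wd.ph_bq h4 h3.le
    (j_le (c := [(3, 3), (0, k + 1)]) (by simp [Vis, inU_iff])) hx) (Rs.BdJ_mono
      (mI_top ▸ le_top) (Le.mI (by simp [Le, inU_iff])) he))) (mem_sup_left hg)
  rw [← h8, add_sub_cancel_right, add_sub_cancel_right] at h9
  rw [← h8, H.idM h2 hu h9, zero_add, Rs.Bd_eq, ← mI_pow, ← mI_pow]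
  exact ⟨h3, add_mem_sup hg he⟩

/-- improving the precision while the window grows -/
theorem extW {u : G (s + 1) → A} (h : RcJ R θ s T (mI c) (mI c') x u) (hV : Vis c c1 = true)
    (hu : u ∈ R.CyJ s T (mI c) (mI c1)) (hb : Le c cb = true)
    (hc : E.ge s T c' c1 cb c2 ls = true) :
    ∃ v ∈ spn (ix s) ls, RcJ R θ s T (mI cb) (mI c2) x (u + v) := by
  obtain ⟨h1, h2, -, -, -, h3⟩ := H.ge hc
  obtain ⟨y, hy, h4⟩ := h.ex
  obtain ⟨z, hz, h5⟩ := Rs.mem_BdJ.1 h4.bd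
  have h6 := sub_mem (H.wd.ph_cy h2 h1 (inv_mI _) (inv_mI _) (Vis.mul hV) h4.cw h4.fl
    (ZC_DD_Fl (sub_mem h.zc (H.wd.bz hy)) _)) hu
  obtain ⟨v, hv, e, he, h7⟩ := mem_sup.1 (h3 (Rs.mem_CyJ.2 ⟨fun i =>
    ⟨(sub_mem (Rs.mem_CyJ.1 h6).1 (Rs.sd_mem_PA (inv_mI _) hz) i).1, h5 i⟩, by
      rw [map_sub]
      exact sub_mem (Rs.mem_CyJ.1 h6).2 (Rs.ZA_mono (Vis.mul hV)
        (Rs.sd_sd H.wd.ok.inv (H.wd.ok' h1).k1 h2 (inv_mI _) hz))⟩))
  refine ⟨v, hv, h.zc, y, hy, h4.cw, Fl_mono p3 (Le.mI hb) h4.fl, ?_⟩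
  rw [← sub_sub, sub_eq_iff_eq_add.1 h7.symm, add_assoc, add_sub_cancel_left]
  exact add_mem he (mem_sup_left ⟨z, Rs.PA_mono (Le.mI hb) hz, rfl⟩)

theorem zJ (hc : E.zC s T k a l = true) :
    s < E.Q ∧ RL R θ ix s T [(0, k)] [(0, k + 1)] 0 l := by
  rw [JD.zC] at hc
  obtain ⟨h1, h2⟩ := grd_spec hc
  obtain ⟨h2, h3⟩ := grd_spec h2
  obtain ⟨h3, h4⟩ := grd_spec h3
  obtain ⟨n, rfl⟩ := Nat.exists_eq_add_of_le (Nat.le_of_ble_eq_true h1)
  rw [Nat.add_sub_cancel_left] at h4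
  have h5 := loop_grd (g := E.z3 s T _ a) (p := fun j => E.ge s T
    [(0, a + 2 + n + 1), (3, a + j + 3)] [(3, a + 2 + n + 3), (6, a + j + 6)] [(0, a + j + 1)]
    [(0, a + 2 + n + 1), (3, a + j + 4)] [] = true) (fun _ _ h => by
      simp only [JD.z3, force_eq, JD.z4] at h
      exact grd_spec h) h4
  obtain ⟨h6, h7, -, -, -, y, hy, h8⟩ := H.cl h3
  have h9 : ∀ {i}, i ≤ a + n → RcJ R θ s T (mI [(0, i)]) (mI [(0, a + 2 + n + 1), (3, i + 3)]) 0
      (vL (ix s) l - y) → RcJ R θ s T (mI [(0, a + 2 + n), (3, i + 3)])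
        (mI [(0, a + 2 + n + 1), (3, i + 3)]) 0 (vL (ix s) l - y) := fun hi h =>
    H.wd.up h7 h6 h (inv_mI _) (inv_mI _) (inv_mI _) (Vis.mul (by simp [Vis, inU_iff]))
      (Le.mI (by simp [Le, inU_iff]; omega)) (Le.mI (by simp [Le, inU_iff]))
      (Rs.PA_mono (Le.mI (by simp [Le, inU_iff])) h8.1)
  have h10 : ∀ j ≤ n, RcJ R θ s T (mI [(0, a + 2 + n), (3, a + j + 3)])
      (mI [(0, a + 2 + n + 1), (3, a + j + 3)]) 0 (vL (ix s) l - y) := fun j hj => by
    induction j with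
    | zero =>
      refine h9 (by omega) (RcJ.zero.congr ?_)
      have h11 := (H.mb h2).2.2.2
      rw [spn, bot_sup_eq] at h11
      simpa using sub_mem (Rs.mem_BdJ_of_ZA (Rs.ZA_mono (Le.mI (by simp [Le, inU_iff])) hy)) h11
    | succ j ih =>
      obtain ⟨_, rfl, h11⟩ := H.extW (ih (by omega)) (by simp [Vis, inU_iff]) (Rs.CyJ_mono
        (Le.mI (by simp [Le, inU_iff])) (Le.mI (by simp [Le, inU_iff])) h8)
        (by simp [Le, inU_iff]; omega) (h5 j hj)
      exact h9 (by omega) (add_zero (vL (ix s) l - y) ▸ h11)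
  exact ⟨h6, ((h10 n le_rfl).mono (Le.mI (by simp [Le, inU_iff]; omega))
    (Le.mI (by simp [Le, inU_iff]; omega))).congr (Rs.mem_BdJ_of_ZA (by simpa using hy))⟩

end WxJ

/-- the data together with a nearby resolution -/
structure WN (R r : Rs 3 K G) (θ : G 0 → G 0 → Cob Laz 1) (E : JD) (ix : ∀ q, G (q + 1) → ℕ)
    (Tm s3 s4 : ℕ) : Prop extends WxJ R θ E ix Tm s3 s4 where
  nr : Rs.Near R r (II 3 K ^ 3) E.Q

namespace WN

variable (H : WN R r θ E ix Tm s3 s4)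

include H

/-- **existence of a class** -/
theorem ex (hc : E.exC s T k p l = true) (h : HI R θ (s + 1) T lo) (hlo : lo < k + p) :
    ∃ x, Rc r θ s T k (k + p) x (vL (ix s) l) :=
  have h1 := H.toWxJ.exJ hc h hlo
  h1.2.2.imp fun _ h2 => H.nr.rc h1.1.le (by omega) (h2.rc (Le.refl _) (Le.refl _))

/-- **generators** -/
theorem hg {sg : List Sg} (hc : E.hgC s T sg = true) (a : ℕ) (𝒵 : AddSubgroup (G 0 → Cob Laz s))
    (hl : ∀ g ∈ sg, ∀ x ∈ g.ls, a ≤ x.1 → vL (ix s) x.2 ∈ Sp r θ (x.1 - 2) (x.1 + 1) T 𝒵)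
    (hg : ∃ g ∈ sg, a ≤ g.a ∧ Le [(0, a)] g.c = true) : Hg r θ a T 𝒵 := by
  obtain ⟨g, h1, h2, h3⟩ := hg
  exact H.nr.hg (hG_iff.1 ((H.toWxJ.hgJ hc (fun g hg x hx ha hs => (hl g hg x hx ha).imp fun _ h =>
    ⟨h.1, H.nr.symm.rc hs.le (by omega) h.2⟩) g h1 h2).le h3))

/-- **leading terms of coboundaries** -/
theorem nx (hc : E.nxC s T k re gh = true) : ∀ x ∈ BQ 3 θ (r.deg 0) T 3 s,
    x ∈ Fl p3 _ s (II 3 K ^ k) → Ph p3 r s x ∈ spn (ix s) gh ⊔ r.Bd s T (k - 2) (k + 1) :=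
    fun x hx hx' => by
  obtain ⟨h1, h2⟩ := H.toWxJ.nxJ hc (H.nr.deg ▸ hx) hx'
  rw [H.nr.Bd h1.le (by omega)]
  simpa using add_mem (mem_sup_right (Rs.mem_Bd_of_ZA (Rs.ZA_mono (Rs.Near.pow_le (by omega))
    (H.nr.Ph h1.le (inv_II.pow k) hx')))) h2

theorem nb (hc : E.nxC s T k re [] = true) : Nb r θ s T k := fun x hx hx' => by
  simpa [spn] using H.nx hc x hx hx'

/-- **a coboundary with given leading terms** -/
theorem z (hc : E.zC s T k a l = true) : Rc r θ s T k (k + 1) 0 (vL (ix s) l) :=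
  have h1 := H.toWxJ.zJ hc
  H.nr.rc h1.1.le (by omega) (h1.2.rc (Le.refl _) (Le.refl _))

end WN

end Vale.Agent.P236JX

end
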