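import Vale.Agent.P236JX.PhiA
import Vale.Agent.P236R.PhiU
import Vale.Agent.P236LB.R

/-!
# P236JX / Phi : the facts for the differential of level 10
-/

namespace Vale.Agent.P236JX

open Vale.Agent.P251.F Vale.Agent.P251.I Vale.Agent.P236EL Vale.Agent.P236JG Vale.Agent.P236LB

theorem phi [Fact (Nat.Prime 3)] {t : Cob Laz 1} (h : HK) (ht : IsT1 3 t) {x x₄ : Cob Laz 1}
    {c c₄ : Cob Laz 2} (hx : Grk 1 1 x c) (h₄ : Grk 0 4 x₄ c₄) : Phi t HH c c₄ :=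
  (phiA h ht hx h₄).imp fun _ h1 => ⟨h1.1, h1.2.imp fun _ h2 => ⟨h2.1, h2.2.1, h2.2.2.1, h2.2.2.2,
    P236R.phi_all ht h hx h₄⟩⟩

end Vale.Agent.P236JX
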