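import Vale.Agent.P236JX.Rule

/-!
# P236JX / Div : division of cocycles by powers of `v_1`
-/

noncomputable section

namespace Vale.Agent.P236EL

open Vale.Agent.P251.F Vale.Agent.P251.F.F3 Vale.Agent.P257.H80 LawRing MvPolynomial Ch
open Vale.Agent.P251.I Vale.Agent.P236SY Vale.Agent.P236F Vale.Agent.P236R AddSubgroup

variable [hp : Fact (Nat.Prime 3)] {G : ℕ → Type} [∀ q, Fintype (G q)] [DecidableEq (G 0)]
  {R : Rs 3 (ZMod 3) G} {θ : G 0 → G 0 → Cob Laz 1} {s k Q : ℕ} {w w' T : ℤ}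
  {x : G 0 → Cob Laz s} {J K : Ideal (AA (ZMod 3))} {t : Cob Laz 1}

theorem rs_lc_v {ι : Type} (y : ι → Cob Laz s) (c : ι) :
    rs p3 s (lc _ (zero_add s) (v1 ^ k) y c) = X (.inl 0) ^ k * rs p3 s (y c) := by
  rw [lc_apply, rs_cupE, sh_zero, map_pow, v1, rs_v1 p3 rfl, pt_X]
  rfl

theorem div_cc {F : CC (ZMod 3)} (e : k + w = w') (h1 : F ∈ Loc 3 _ s) (h2 : F ∈ WC 3 _ w')
    (h3 : F ∈ Fil 3 (Ideal.span {X 0 ^ k} * K)) :
    ∃ y, (y ∈ Loc 3 _ s ∧ y ∈ WC 3 _ w ∧ y ∈ Fil 3 K) ∧ X (.inl 0) ^ k * y = F := by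
  have h0 : (univ (ZMod 3)).pt 3 0 (X 0) = X (.inl 0) := pt_X _ _ _
  rw [Fil_mul, Fil, Ideal.map_span, Set.image_singleton, map_pow, h0] at h3
  obtain ⟨y, h4, rfl⟩ := Ideal.mem_span_singleton_mul.1 h3
  have h5 := mem_Loc.1 (Loc_mono s.zero_le (pt_mem_Loc (p := 3) 0 (X 0 : AA (ZMod 3))))
  rw [h0] at h5
  rw [mem_Loc, map_mul, map_pow, h5] at h1
  refine ⟨y, ⟨mul_left_cancel₀ (pow_ne_zero _ (X_ne_zero _)) h1, fun d hd => ?_, h4⟩, rfl⟩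
  rw [X_pow_eq_monomial] at h2
  have h6 := h2 (d := Finsupp.single (.inl 0) k + d) (by rwa [coeff_monomial_mul, one_mul])
  rw [map_add, Finsupp.weight_single, show wC 3 (.inl 0) = 1 from rfl, nsmul_one] at h6
  omega

theorem fl_bot_iff {ι : Type} {z : ι → Cob Laz s} : z ∈ Fl p3 _ s ⊥ ↔ ∀ c, rs p3 s (z c) = 0 :=
  forall_congr' fun c => by rw [Fil_bot, Ideal.mem_bot, rsP_apply]

/-- **division by a power of `v_1`** -/
theorem WdJ.div (H : WdJ R θ J Q T) (ht : IsT1 3 t) (e : k + w = w')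
    (hx : x ∈ ZC 3 θ (R.deg 0) w' 3 s) (hx' : x ∈ Fl p3 _ s (Ideal.span {X 0 ^ k} * K)) :
    ∃ z ∈ ZC 3 θ (R.deg 0) w 3 s, z ∈ Fl p3 _ s K ∧
      x - lc _ (zero_add s) (v1 ^ k) z ∈ BQ 3 θ (R.deg 0) w' 3 s := by
  choose y hy hy' using fun c => div_cc (w := w - R.deg 0 c) (by omega) (rs_mem_Loc p3 s (x c))
    (rs_mem_WC p3 (hx.1 c)) (hx' c)
  obtain ⟨Y, h2, h3, h4⟩ := exists_rsP p3 (d := R.deg 0) hy
  have h6 : x - lc _ (zero_add s) (v1 ^ k) Y ∈ Fl p3 _ s ⊥ := fl_bot_iff.2 fun c => by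
    rw [Pi.sub_apply, map_sub, rs_lc_v, ← hy', ← h4, rsP_apply, sub_self]
  have h7 := sub_mem (ZC_DD_Fl hx ⊥) (H.ic.DD_mem_Fl inv_bot h6)
  rw [map_sub, sub_sub_cancel, DD_lc H.mc, pow_zero, one_smul] at h7
  have h8 := sub_mem h7 (Fl_mono p3 (Ideal.bot_mul _).le (lc_mem_Fl (by omega) inv_top
    (rs_of_dvd (zs_iff.1 (zs_v ht k)).2 ⊥) (mem_Fl_top p3 Y)))
  rw [add_sub_cancel_left] at h8
  obtain ⟨z, hz, h9⟩ := H.exists_zc (x := Y) (mem_XN.2 ⟨h2, fl_bot_iff.2 fun c =>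
    (mul_eq_zero.1 ((rs_lc_v _ c).symm.trans (fl_bot_iff.1 h8 c))).resolve_left
      (pow_ne_zero _ (X_ne_zero _))⟩)
  have h10 : lc _ (zero_add s) (v1 ^ k) (z - Y) ∈ Fl p3 _ s ⊥ := fl_bot_iff.2 fun c => by
    rw [rs_lc_v, fl_bot_iff.1 h9, mul_zero]
  have h11 := sub_mem h6 h10
  have h12 := add_mem (Fl_mono p3 bot_le h9) h3
  rw [map_sub, sub_sub, add_sub_cancel] at h11
  rw [sub_add_cancel] at h12
  exact ⟨z, hz, h12, H.zc_bot' (sub_mem hx (lcZ H.mc _ (zs_v ht k) e hz)) h11⟩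

end Vale.Agent.P236EL

namespace Vale.Agent.P236JX

open MvPolynomial Vale.Agent.P236EL Vale.Agent.P236KE Vale.Agent.P236K2 Vale.Agent.P236K3
  Vale.Agent.P236JF Vale.Agent.P236JR Vale.Agent.P236J3 Vale.Agent.P236F Vale.Agent.P251.F
  Vale.Agent.P251.I Vale.Agent.P236SY AddSubgroup

variable [Fact (Nat.Prime 3)] {G : ℕ → Type} [∀ q, Fintype (G q)] {R : Rs 3 K G}
  {θ : G 0 → G 0 → Cob Laz 1} {ix : ∀ q, G (q + 1) → ℕ} {s T k b : ℕ} {w : ℤ} {c : CN}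
  {x : G 0 → Cob Laz s} [DecidableEq (G 0)] {E : JD} {Tm s3 s4 : ℕ} {t : Cob Laz 1}

namespace WxJ

variable (H : WxJ R θ E ix Tm s3 s4)

include H

/-- a class without terms in the window has high filtration -/
theorem fl {c' : CN} {r : Bool} (h : RL R θ ix s T c c' x [])
    (hc : E.bn s T (grd (Vis c c') r) = true) :
    ∃ y ∈ BQ 3 θ (R.deg 0) T 3 s, x - y ∈ Fl p3 _ s (mI c') :=
  have h1 := H.bn hc
  (H.wd.fl h1.2.2.1 h1.1.le h (inv_mI _) (inv_mI _) (Vis.mul (grd_spec h1.2.2.2).1) le_rfl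
    (zero_mem _)).imp fun _ h => ⟨h.1, h.2.1⟩

/-- **a class which vanishes modulo `v_1 ^ k` is divisible by `v_1 ^ k`** -/
theorem div (ht : IsT1 3 t) {r : Bool} (e : k + w = T) (h : RL R θ ix s T c [(k, b)] x [])
    (hc : E.bn s T (grd (Vis c [(k, b)]) r) = true) :
    ∃ z ∈ ZC 3 θ (R.deg 0) w 3 s, z ∈ Fl p3 _ s (II 3 K ^ (b - k)) ∧
      x - lc _ (zero_add s) (v1 ^ k) z ∈ BQ 3 θ (R.deg 0) T 3 s := by
  obtain ⟨y, hy, h1⟩ := H.fl h hc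
  obtain ⟨z, hz, h2, h3⟩ := H.wd.div ht e (sub_mem h.zc (H.wd.bz hy)) (mI_single k b ▸ h1)
  exact ⟨z, hz, h2, by simpa [sub_right_comm x y] using add_mem h3 hy⟩

end WxJ

end Vale.Agent.P236JX

end
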