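import Vale.Agent.P236JX.Rule
import Vale.Agent.P236J.Near

/-!
# P236JX / Tr : transfer between resolutions which agree modulo the third power of the ideal
-/

noncomputable section

namespace Vale.Agent.P236EL.Rs.Near

open MvPolynomial Vale.Agent.P236KE Vale.Agent.P236K3 Vale.Agent.P236F Vale.Agent.P251.F
  Vale.Agent.P236SY AddSubgroup

variable [Fact (Nat.Prime 3)] {G : ℕ → Type} [∀ q, Fintype (G q)] {R R' : Rs 3 K G}
  {θ : G 0 → G 0 → Cob Laz 1} {ix : ∀ q, G (q + 1) → ℕ} {s T n a b j k : ℕ} {w : ℤ}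
  {x : G 0 → Cob Laz s} {u : G (s + 1) → A} {𝒵 : AddSubgroup (G 0 → Cob Laz s)}
  {P : (G 0 → Cob Laz s) → Prop} {C : List Tr → Bool} (h : Near R R' (II 3 K ^ 3) n)

include h

theorem rcJ {M M' : Ideal A} (hs : s ≤ n) (hM : Inv 3 M) (hb : M * II 3 K ^ 3 ≤ M')
    (hx : RcJ R θ s w M M' x u) : RcJ R' θ s w M M' x u :=
  ⟨h.deg ▸ hx.zc, hx.ex.imp fun _ h1 => ⟨h.deg ▸ h1.1, h.rvJ hs hM hb h1.2⟩⟩

theorem rc (hs : s ≤ n) (hb : b ≤ a + 3) (hx : Rc R θ s w a b x u) : Rc R' θ s w a b x u :=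
  ⟨h.deg ▸ hx.zc, hx.ex.imp fun _ h1 => ⟨h.deg ▸ h1.1, h.rv hs hb h1.2⟩⟩

theorem hg (hx : Hg R θ k w 𝒵) : Hg R' θ k w 𝒵 := by
  rw [Hg, h.deg]
  exact hx

theorem ds (hx : Ds R θ s j a k w) : Ds R' θ s j a k w := by
  rw [Ds, h.deg]
  exact hx

theorem nb (hs : s ≤ n) (hx : Nb R θ s T k) : Nb R' θ s T k := fun x h1 h2 => by
  rw [h.Bd hs (by omega)]
  simpa using add_mem (mem_Bd_of_ZA (ZA_mono (pow_le (by omega)) (h.Ph hs (inv_II.pow k) h2)))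
    (hx x (h.deg ▸ h1) h2)

theorem nz (hs : s ≤ n) (hx : Nz R θ s T a) : Nz R' θ s T a :=
  fun _ hk => h.nb hs (hx.nb hk)

theorem al (hs : s ≤ n) (hx : Al R θ T k P) : Al R' θ T k P :=
  fun x h1 => hx x (h.symm.rc hs (Nat.le_add_right k 3) h1)

theorem sdT (hs : s ≤ n) (hb : b ≤ a + 3) (hx : Sd R θ ix T a b C P) : Sd R' θ ix T a b C P :=
  fun m x h1 h2 => hx m x h1 (h.symm.rc hs hb h2)

theorem sl {N : ℕ} (hs : s ≤ n) (hb : b ≤ a + 3) (hx : u ∈ Sl R θ s a b N w) :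
    u ∈ Sl R' θ s a b N w := hx.imp fun _ h1 => ⟨h.rv hs hb h1.1, h1.2⟩

end Vale.Agent.P236EL.Rs.Near

end
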