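import Vale.Agent.P236JX.Ax
import Vale.Agent.P236J3.Top

/-!
# P236JX / Lst : listed vectors in a window, independence of lists
-/

noncomputable section

namespace Vale.Agent.P236JX

open MvPolynomial Vale.Agent.P236EL Vale.Agent.P236KE Vale.Agent.P236K2 Vale.Agent.P236K3
  Vale.Agent.P236JF Vale.Agent.P236JR Vale.Agent.P236J3 Vale.Agent.P236F Vale.Agent.P251.F
  AddSubgroup

/-- lists of corners -/
abbrev CN : Type := List (ℕ × ℕ)

/-- the length of a term -/
def lenT (t : Tr) : Nat := Nat.add (Nat.add (Nat.add t.e1 t.e2) t.e3) t.e4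

/-- the terms have weight `T` and lie in the ideal -/
def okJ (L : LD) (T : Nat) (c : CN) (l : List Tr) : Bool := l.all fun t =>
  grd (decide (t.i < L.n ∧ t.e1 + 4 * t.e2 + 13 * t.e3 + 40 * t.e4 + L.dg t.i = T))
    (inU c t.e1 (lenT t))

/-- the computation of a list of terms modulo an ideal -/
def vcJ (L : LD) (c' : CN) (l : List Tr) : VC :=
  List.rec (motive := fun _ => VC) VC.zero (fun t _ ih => Bool.rec (motive := fun _ => VC)
    (((VC.mon L t.i t.e3 t.e4).sm t.c).add ih) ih (inU c' t.e1 (lenT t))) l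

/-- data of a complex with the bounds for degree and weight -/
structure JD : Type where
  D : KD
  Q : Nat
  T : Nat

namespace JD

variable (E : JD) (s T : Nat)

/-- the bounds -/
def bn (c : Bool) : Bool := grd (Nat.ble (Nat.succ s) E.Q) (grd (Nat.ble T E.T) c)
/-- the lists are correct -/
def oks (c : CN) (ls : List (List Tr)) : Bool := ls.all (okJ (E.D.L s) T c)
/-- the computations of the lists -/
def vcs (c' : CN) (ls : List (List Tr)) : List VC := ls.map (vcJ (E.D.L s) c')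
def nl2 (c c' : CN) (l : PL) (x : P) : Bool :=
  noS (E.D.L s) (E.D.bdJ s T c c' l (nat_lit 0)) x true
def nl1 (c c' : CN) (v : VC) (l : PL) : Bool := v.run (E.nl2 s T c c' l)
/-- non-membership in the boundaries modulo the span of a list -/
def noL (c c' : CN) (l : List VC) (v : VC) : Bool := runL l (E.nl1 s T c c' v)
/-- the lists are independent modulo the boundaries -/
def ind (c c' : CN) (ls : List (List Tr)) : Bool :=
  List.rec (motive := fun _ => Bool) true
    (fun l ls ih => grd (E.noL s T c c' (E.vcs s c' ls) (vcJ (E.D.L s) c' l)) ih) ls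

end JD

section lists

variable {W : Type} [Fintype W] {L : LD} {ix : W → ℕ} {T : ℕ} {c c' : CN}

theorem vr_vJ (hL : L.Ok ix) {l : List Tr} (h : okJ L T c l = true) :
    VRJ L ix T c c' (vcJ L c' l) (vL ix l) := by
  induction l with
  | nil => exact VRJ.zero
  | cons t l ih =>
    rw [okJ, List.all_cons, Bool.and_eq_true] at h
    obtain ⟨h0, h5⟩ := h
    obtain ⟨h0, h3⟩ := grd_spec h0
    obtain ⟨h1, h2⟩ := of_decide_eq_true h0
    obtain ⟨g, hg⟩ := hL.sur _ h1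
    have h6 : ∀ c, InU c (mk4 t.e1 t.e2 t.e3 t.e4) ↔ inU c t.e1 (lenT t) = true := fun c => by
      rw [InU, mk4_0, lenM, weight_mk4, lenT]
      simp
    have h4 : wtM (mk4 t.e1 t.e2 t.e3 t.e4) + L.dg (ix g) = T := by
      rw [wtM, weight_wt_mk4, hg, h2]
    have h9 : vL ix (t :: l) = t.c • bv g (mk4 t.e1 t.e2 t.e3 t.e4) + vL ix l := funext fun g' => by
      rw [Pi.add_apply, vL, vL, List.map_cons, List.sum_cons, ← hg, Pi.smul_apply]
      by_cases h8 : g' = g
      · rw [h8, bv_self, if_pos rfl]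
      · rw [bv_ne h8, if_neg fun h9 => h8 (hL.inj h9), smul_zero]
    rw [h9]
    change VRJ _ _ _ _ _ (Bool.rec (motive := fun _ => VC) _ _ (inU c' t.e1 (lenT t))) _
    cases h7 : inU c' t.e1 (lenT t)
    · have h8 := VRJ.mon (L := L) (ix := ix) g h4 ⟨(h6 c).2 h3, by rw [h6, h7]; exact nofun⟩
      rw [mk4_2, mk4_3, hg] at h8
      exact (h8.sm t.c).add (ih h5)
    · exact (ih h5).congr (add_mem (nsmul_mem (bv_memJ h4 ((h6 c).2 h3)) _) (ih h5).hz)
        (by rw [add_sub_cancel_right]; exact nsmul_mem (bv_memJ h4 ((h6 c').2 h7)).2 _)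

omit [Fintype W] in
theorem shL_cov {l : PL} {x : P} (h : l.Mem x) (O : ℕ) : (shL l O).Mem (x.shl O) := by
  induction l with
  | nil => exact h.elim
  | cons z l ih => exact h.elim (fun h => .inl (h ▸ rfl)) fun h => .inr (ih h)

theorem runL_cov {l : List VC} {φ : List (W → A)} (h : List.Forall₂ (VRJ L ix T c c') l φ)
    {k : PL → Bool} (hk : runL l k = true) : ∃ l' : PL, (∀ x, l'.Mem x → ∃ v, x.R v) ∧
      (∀ u ∈ φ, ∃ x, l'.Mem x ∧ x.R (cq L ix (Wn c c') u)) ∧ k l' = true := by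
  induction h generalizing k with
  | nil => exact ⟨PL.nil, fun _ h => False.elim h, fun _ h => (nomatch h), hk⟩
  | cons h _ ih =>
    obtain ⟨x, h1, h2⟩ := h.run _ hk
    obtain ⟨l', h3, h4, h5⟩ := ih h2
    refine ⟨_, fun z hz => ?_, fun u hu => ?_, h5⟩
    · exact hz.elim (fun e => ⟨_, e ▸ h1⟩) (h3 z)
    · rcases List.mem_cons.1 hu with rfl | hu
      · exact ⟨x, .inl rfl, h1⟩
      · exact (h4 u hu).imp fun _ h => ⟨.inr h.1, h.2⟩

end lists

variable [Fact (Nat.Prime 3)] {G : ℕ → Type} [∀ q, Fintype (G q)] [DecidableEq (G 0)]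

/-- a resolution with curvature in the cube of `v_1`, together with its data -/
structure WxJ (R : Rs 3 K G) (θ : G 0 → G 0 → Cob Laz 1) (E : JD) (ix : ∀ q, G (q + 1) → ℕ)
    (Tm s3 s4 : ℕ) : Prop where
  wd : WdJ R θ (Jr K 3) E.Q E.T
  cx : CxJ R 0 E.Q Tm s3 s4 E.D ix
  hT : E.T ≤ Tm

namespace WxJ

variable {R : Rs 3 K G} {θ : G 0 → G 0 → Cob Laz 1} {E : JD} {ix : ∀ q, G (q + 1) → ℕ}
  {Tm s3 s4 : ℕ} (H : WxJ R θ E ix Tm s3 s4) {s T : ℕ} {c c' : CN} {ls : List (List Tr)}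
  {l : List VC} {φ : List (G (s + 1) → A)} {v : VC} {u : G (s + 1) → A}

include H

theorem bn {b : Bool} (h : E.bn s T b = true) :
    s < E.Q ∧ T ≤ Tm ∧ (T : ℤ) ≤ E.T ∧ b = true :=
  have h1 := grd_spec h
  have h2 := grd_spec h1.2
  have h3 := Nat.le_of_ble_eq_true h2.1
  ⟨Nat.le_of_ble_eq_true h1.1, h3.trans H.hT, Int.ofNat_le.2 h3, h2.2⟩

theorem vr {m : List Tr} (h : okJ (E.D.L s) T c m = true) :
    VRJ (E.D.L s) (ix s) T c c' (vcJ (E.D.L s) c' m) (vL (ix s) m) := vr_vJ (H.cx.ok s) h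

theorem pa {m : List Tr} (h : okJ (E.D.L s) T c m = true) :
    vL (ix s) m ∈ PA 3 (R.deg (s + 1)) T (mI c) :=
  (H.cx.pa (add_zero _).symm).2 (H.vr (c' := []) h).hz

theorem vrs (h : E.oks s T c ls = true) :
    List.Forall₂ (VRJ (E.D.L s) (ix s) T c c') (E.vcs s c' ls) (ls.map (vL (ix s))) := by
  rw [JD.vcs, List.forall₂_map_left_iff, List.forall₂_map_right_iff, List.forall₂_same]
  exact fun m hm => H.vr (List.all_eq_true.1 h m hm)

omit H [Fact (Nat.Prime 3)] [∀ q, Fintype (G q)] [DecidableEq (G 0)] in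
theorem mem_map : ∀ u ∈ ls.map (vL (ix s)), u ∈ spn (ix s) ls := fun _ hu => by
  obtain ⟨m, hm, rfl⟩ := List.mem_map.1 hu
  exact mem_spn hm

/-- **non-membership modulo a list** -/
theorem noL (hs : s ≤ E.Q) (hT : T ≤ Tm) (hV : Vis c c' = true)
    (hl : List.Forall₂ (VRJ (E.D.L s) (ix s) T c c') l φ)
    (hv : VRJ (E.D.L s) (ix s) T c c' v u) (hc : E.noL s T c c' l v = true) :
    u ∉ closure {u | u ∈ φ} ⊔ R.BdJ s T (mI c) (mI c') := fun hu => by
  obtain ⟨l', h1, h2, h3⟩ := runL_cov hl hc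
  obtain ⟨x, h4, h5⟩ := hv.run _ h3
  have h6 : ∀ z, (shL l' 0).Mem z → ∃ v, z.R v := fun z hz => by
    obtain ⟨z, h7, rfl⟩ := shL_mem hz
    exact (h1 z h7).elim fun _ h => ⟨_, h.shl 0⟩
  refine (noS_spec (l := E.D.bdJ s T c c' l' 0) (fun z hz => ?_) h4 h5).2
    (⨅ S' : {S' : Sub // ∀ z w, (E.D.bdJ s T c c' l' 0).Mem z → z.R w → w ∈ S'}, S'.1)
    (fun S' hS => iInf_le_of_le ⟨S', hS⟩ le_rfl) ((Submodule.mem_iInf _).2 fun ⟨S', hS⟩ => ?_)
  · rcases s with _ | q
    · exact h6 z hz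
    · exact (rowsJ_mem (H.cx.st q hs) ((H.cx.hT _).symm ▸ hT) hV hz).elim (h6 z)
        fun ⟨_, _, h⟩ => ⟨_, h⟩
  have h7 : ∀ z, (shL l' 0).Mem z → (E.D.bdJ s T c c' l' 0).Mem z := fun z hz => by
    rcases s with _ | q
    · exact hz
    · exact enumA_ind (Q := fun l : PL => l.Mem z) hz fun _ _ _ _ _ _ _ _ _ h => .inr h
  refine (sup_le ((closure_le _).2 fun u hu => ?_) (sup_le ?_ fun u hu => ?_) : _ ≤
    (S'.comap (cq (E.D.L s) (ix s) (Wn c c'))).toAddSubgroup) hu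
  · obtain ⟨z, h8, h9⟩ := h2 u hu
    exact hS _ _ (h7 _ (shL_cov h8 0)) (sh_zero _ ▸ h9.shl 0)
  · rintro _ ⟨y, hy, rfl⟩
    rcases s with _ | q
    · exact zero_mem _
    change cq _ _ _ _ ∈ S'
    rw [← Rs.dl_one, ← dly_eq]
    refine HJ_ind (f := (cq _ _ _).comp (dly (R.y q) 1)) (fun w J h8 h9 => ?_)
      ((H.cx.pa (add_zero _).symm).1 hy)
    by_cases h10 : InU c' J
    · rw [LinearMap.comp_apply, cq_Wn_zero (dly_ZJ 1 (bv_memJ h8 h10).2)]
      exact S'.zero_mem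
    · obtain ⟨x, h11, h12⟩ := rowsJ_cov (O := 0) (H.cx.st q hs) ((H.cx.hT _).symm ▸ hT) hV
        (shL l' 0) h8 ⟨h9, h10⟩
      exact hS _ _ h11 (sh_zero _ ▸ h12)
  · change cq _ _ _ _ ∈ S'
    rw [cq_Wn_zero hu]
    exact S'.zero_mem

/-- **independence** -/
theorem ind (hs : s ≤ E.Q) (hT : T ≤ Tm) (hV : Vis c c' = true) (ho : E.oks s T c ls = true)
    (hc : E.ind s T c c' ls = true) (hu : u ∈ spn (ix s) ls) (hb : u ∈ R.BdJ s T (mI c) (mI c')) :
    u = 0 := by
  induction ls with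
  | nil => exact mem_bot.1 hu
  | cons m ls ih =>
    obtain ⟨h1, h2⟩ := grd_spec hc
    rw [JD.oks, List.all_cons, Bool.and_eq_true] at ho
    have h3 := H.noL hs hT hV (H.vrs ho.2) (H.vr ho.1) h1
    have h4 : spn (ix s) ls ≤ closure {u | u ∈ ls.map (vL (ix s))} :=
      spn_le fun m hm => subset_closure (List.mem_map_of_mem hm)
    obtain ⟨z, hz, rfl | rfl | rfl⟩ := spn_cons hu
    · exact ih ho.2 h2 hz
    · exact (h3 (by simpa using sub_mem (mem_sup_right hb) (mem_sup_left (h4 hz)))).elim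
    · refine (h3 ?_).elim
      have h5 := nsmul_mem (sub_mem (mem_sup_right hb) (mem_sup_left (h4 hz))) 2
      have h6 : (3 : ℕ) • vL (ix s) m = 0 := funext fun g => by
        rw [Pi.smul_apply, nsmul_eq_mul]
        exact mul_eq_zero_of_left (CharP.cast_eq_zero A 3) _
      rwa [add_sub_cancel_right, vL_twL, ← mul_nsmul', show 2 * 2 = 3 + 1 from rfl, add_nsmul, h6,
        zero_add, one_nsmul] at h5

end WxJ

end Vale.Agent.P236JX

end
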