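import Vale.Agent.P236JX.Cls
import Vale.Agent.P236J.Cmp

/-!
# P236JX / Ax : induction along chains of invariant ideals
-/

noncomputable section

namespace Vale.Agent.P236EL

open Vale.Agent.P251.F Vale.Agent.P251.F.F3 Vale.Agent.P257.H80 LawRing MvPolynomial Ch
open Vale.Agent.P251.I Vale.Agent.P236SY Vale.Agent.P236F Vale.Agent.P236R AddSubgroup

variable [hp : Fact (Nat.Prime 3)] {G : ℕ → Type} [∀ q, Fintype (G q)]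
  {R : Rs 3 (ZMod 3) G} {θ : G 0 → G 0 → Cob Laz 1} {s a b k n Q : ℕ} {w w' T : ℤ}
  {x x' : G 0 → Cob Laz s} {u u' : G (s + 1) → AA (ZMod 3)}
  {𝒳 𝒳' 𝒰 𝒴 𝒵 : AddSubgroup (G 0 → Cob Laz s)} {P P' : (G 0 → Cob Laz s) → Prop}
  {J K K' K₁ Kn Kb K₂ M N N' : Ideal (AA (ZMod 3))} {S : AddSubgroup (G (s + 1) → AA (ZMod 3))}

/-- all elements of `𝒳` of filtration `K` satisfy `P` -/
def Ax {ι : Type} (𝒳 : AddSubgroup (ι → Cob Laz s)) (K : Ideal (AA (ZMod 3)))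
    (P : (ι → Cob Laz s) → Prop) : Prop := ∀ x ∈ 𝒳, x ∈ Fl p3 _ s K → P x

/-- the property is stable under adding elements of `𝒰` -/
def Cq {V : Type} [AddCommGroup V] (𝒰 : AddSubgroup V) (P : V → Prop) : Prop :=
  ∀ z ∈ 𝒰, ∀ x, P (x - z) → P x

omit hp in
theorem Cq.mem {V : Type} [AddCommGroup V] {𝒰 𝒴 : AddSubgroup V} (h : 𝒰 ≤ 𝒴) : Cq 𝒰 (· ∈ 𝒴) :=
  fun z hz x hx => by simpa using add_mem hx (h hz)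

omit hp in
theorem Cq.mono {V : Type} [AddCommGroup V] {𝒰 𝒴 : AddSubgroup V} {P : V → Prop} (h : Cq 𝒴 P)
    (h' : 𝒰 ≤ 𝒴) : Cq 𝒰 P := fun z hz => h z (h' hz)

omit [∀ q, Fintype (G q)] in
theorem Ax.mono (h : Ax 𝒳 K P) (h1 : 𝒳' ≤ 𝒳) (h2 : K' ≤ K) (h3 : ∀ x ∈ 𝒳', P x → P' x) :
    Ax 𝒳' K' P' := fun x hx hx' => h3 x hx (h x (h1 hx) (Fl_mono p3 h2 hx'))

omit [∀ q, Fintype (G q)] in
theorem Ax.le (h : Ax 𝒳 K P) (h2 : K' ≤ K) : Ax 𝒳 K' P := h.mono le_rfl h2 fun _ _ h => h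

variable (R θ s w N) in
/-- cochains whose differential has filtration `N` -/
def XN : AddSubgroup (G 0 → Cob Laz s) :=
  CW 3 Laz (R.deg 0) w s ⊓ (Fl p3 _ (s + 1) N).comap (DD θ s)

theorem mem_XN : x ∈ XN R θ s w N ↔
    x ∈ CW 3 Laz (R.deg 0) w s ∧ DD θ s x ∈ Fl p3 _ (s + 1) N := Iff.rfl

theorem XN_mono (h : N ≤ N') : XN R θ s w N ≤ XN R θ s w N' :=
  fun _ hx => ⟨hx.1, Fl_mono p3 h hx.2⟩

theorem ZC_le_XN : ZC 3 θ (R.deg 0) w 3 s ≤ XN R θ s w N := fun _ hx => ⟨hx.1, ZC_DD_Fl hx _⟩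

variable (R θ w 𝒳 N) in
/-- a group of cochains whose differentials have filtration `N` -/
structure Xs : Prop where
  le : 𝒳 ≤ XN R θ s w N
  bq : BQ 3 θ (R.deg 0) w 3 s ≤ 𝒳

variable (R θ w K P) in
/-- all classes of filtration `K` satisfy `P` -/
def AlJ : Prop := ∀ x, RcJ R θ s w K K x 0 → P x

theorem rcJ_any (hK : Inv 3 K) (hx : x ∈ ZC 3 θ (R.deg 0) w 3 s) (hx' : x ∈ Fl p3 _ s K) :
    RcJ R θ s w K K x 0 := .of hx (RJ.of_sub RJ.zero hK hx.1 hx' (by rwa [sub_zero]))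

theorem AlJ.ax (h : AlJ R θ w P K) (hK : Inv 3 K) : Ax (ZC 3 θ (R.deg 0) w 3 s) K P :=
  fun x hx hx' => h x (rcJ_any hK hx hx')

theorem AlJ.le (h : AlJ R θ w P K) (h' : K' ≤ K) : AlJ R θ w P K' :=
  fun x hx => h x (hx.mono h' h')

theorem AlJ.imp (h : AlJ R θ w P K) (h' : ∀ x, P x → P' x) : AlJ R θ w P' K :=
  fun x hx => h' x (h x hx)

theorem alJ_iff {T : ℕ} : AlJ R θ T P (II 3 _ ^ k) ↔ Al R θ T k P :=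
  forall_congr' fun _ => imp_congr_left RcJ.iff_rc

theorem hg_iff : Ax (ZC 3 θ (R.deg 0) w 3 s) (II 3 _ ^ k) (· ∈ 𝒵 ⊔ BQ 3 θ (R.deg 0) w 3 s) ↔
    Hg R θ k w 𝒵 := Iff.rfl

theorem Ax.ds {j m : ℕ} (h : Ax (XN R θ s w (II 3 _ ^ n)) (II 3 _ ^ j)
    (· ∈ Fl p3 _ s (II 3 _ ^ m) ⊔ XN R θ s w (II 3 _ ^ (n + 1)))) : Ds R θ s j m n w :=
    fun y h1 h2 h3 => by
  obtain ⟨y', h4, z, h5, rfl⟩ := mem_sup.1 (h y ⟨h1, h3⟩ h2)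
  exact ⟨y', by simpa using sub_mem h1 h5.1, h4, by simpa using (mem_XN.1 h5).2⟩

theorem Ds.ax {j m : ℕ} (h : Ds R θ s j m n w) : Ax (XN R θ s w (II 3 _ ^ n)) (II 3 _ ^ j)
    (· ∈ Fl p3 _ s (II 3 _ ^ m) ⊔ XN R θ s w (II 3 _ ^ (n + 1))) := fun y h1 h2 => by
  obtain ⟨y', h3, h4, h5⟩ := h y h1.1 h2 h1.2
  exact mem_sup.2 ⟨y', h4, y - y', mem_XN.2 ⟨sub_mem h1.1 h3, by rwa [map_sub]⟩, by simp⟩

variable [DecidableEq (G 0)]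

namespace WdJ

variable (H : WdJ R θ J Q T)

include H

theorem xsZ : Xs R θ w (ZC 3 θ (R.deg 0) w 3 s) N := ⟨ZC_le_XN, H.bz⟩

theorem xsB : Xs R θ w (BQ 3 θ (R.deg 0) w 3 s) N := ⟨H.bz.trans ZC_le_XN, le_rfl⟩

theorem xsN : Xs R θ w (XN R θ s w N) N := ⟨le_rfl, H.bz.trans ZC_le_XN⟩

theorem al_of (h : Ax (ZC 3 θ (R.deg 0) w 3 s) K P) (hP : Cq (BQ 3 θ (R.deg 0) w 3 s) P) :
    AlJ R θ w P K := fun x hx => by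
  obtain ⟨y, hy, h1⟩ := hx.ex
  exact hP y hy x (h _ (sub_mem hx.zc (H.bz hy)) h1.fl)

/-- cochains of large filtration restrict to zero -/
theorem fl_bot (hn : w < n) (hx : x ∈ CW 3 Laz (R.deg 0) w s)
    (hx' : x ∈ Fl p3 _ s (II 3 _ ^ n)) : x ∈ Fl p3 _ s ⊥ := fun c => by
  have h1 : Fil 3 (II 3 (ZMod 3)) ≤ Hi 3 (ZMod 3) 1 := Fil_II_le.trans (sup_le (by
    rw [← map_natCast C, ZMod.natCast_self, map_zero, Ideal.span_singleton_zero]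
    exact bot_le) le_rfl)
  have h2 := hx' c
  rw [Fil, Ideal.map_pow] at h2
  rw [Fil_bot, Ideal.mem_bot]
  refine MvPolynomial.ext _ _ fun m => by_contra fun h => h ?_
  refine Hi_pow n (Ideal.pow_right_mono h1 n h2) m ?_
  have h3 := H.nn c
  rw [rs_mem_WC p3 (hx c) h]
  omega

theorem zc_bot (hx : x ∈ ZC 3 θ (R.deg 0) w 3 s) (hx' : x ∈ Fl p3 _ s ⊥) :
    x ∈ BF p3 θ (R.deg 0) w ⊥ s ⊔ QW 3 Laz (R.deg 0) w 3 s := by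
  obtain ⟨h1, c, hc, h2⟩ := mem_ZC.1 hx
  obtain ⟨b, hb, v, hv, rfl⟩ := H.ic.fin_zero dvd_rfl h1 (funext fun c => by
    have h3 := hx' c
    rwa [Fil_bot, Ideal.mem_bot] at h3) hc h2.symm
  exact add_mem_sup hb (mem_QW.2 ⟨v, hv, rfl⟩)

theorem zc_bot' (hx : x ∈ ZC 3 θ (R.deg 0) w 3 s) (hx' : x ∈ Fl p3 _ s ⊥) :
    x ∈ BQ 3 θ (R.deg 0) w 3 s := sup_le bf_bq le_sup_right (H.zc_bot hx hx')

/-- a cochain whose differential restricts to zero can be replaced by a cocycle -/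
theorem exists_zc (hx : x ∈ XN R θ s w ⊥) :
    ∃ z ∈ ZC 3 θ (R.deg 0) w 3 s, z - x ∈ Fl p3 _ s ⊥ := by
  obtain ⟨z, hz, h1⟩ := H.ic.exists_ZC (rsP_mem p3 hx.1 (mem_Fl_top p3 x)) (funext fun c => by
    have h3 := (mem_XN.1 hx).2 c
    rwa [Fil_bot, Ideal.mem_bot, H.ic.rsP_DD] at h3)
  exact ⟨z, hz, by rw [Fl, mem_comap, map_sub, h1, sub_self]; exact zero_mem _⟩

theorem ax_top (hX : Xs R θ w 𝒳 N) (hn : w < n) (hK : K ≤ II 3 _ ^ n) (h : Ax 𝒳 ⊥ P) :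
    Ax 𝒳 K P := fun x hx hx' => h x hx (H.fl_bot hn (hX.le hx).1 (Fl_mono p3 hK hx'))

variable (hw : w ≤ T)

include hw

/-- raising the filtration of a cochain -/
theorem raise (hs : s ≤ Q) (h : RvJ p3 R s w K K' x u) (hK : Inv 3 K) (hM : Inv 3 M)
    (hKK : K * J ≤ K') (hk : K' ≤ M) (hu : u ∈ ZA _ M) (hd : DD θ s x ∈ Fl p3 _ (s + 1) M) :
    ∃ y ∈ BF p3 θ (R.deg 0) w K s, x - y ∈ Fl p3 _ s M ∧ RvJ p3 R s w K K' (x - y) u := by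
  obtain ⟨v, hv, h1⟩ := Rs.mem_BdJ.1 h.bd
  rw [Fl, mem_comap, H.ic.rsP_DD] at hd
  obtain ⟨z, hz, h2⟩ := Rs.Phi_injJ (H.ok' hs) hw hK hM (hKK.trans hk) (rsP_mem p3 h.cw h.fl) hd hv
    (by
      have h3 := add_mem (Rs.ZA_mono hk h1) hu
      rwa [sub_right_comm, sub_add_cancel] at h3)
  obtain ⟨y, hy, h5⟩ := H.ic.exists_BF hz
  exact ⟨y, hy, by rwa [Fl, mem_comap, map_sub, h5],
    by simpa using RJ.sub h (H.of_bf hw hs hK hKK hy)⟩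

theorem fl (hs : s ≤ Q) (h : RcJ R θ s w K K' x u) (hK : Inv 3 K) (hM : Inv 3 M)
    (hKK : K * J ≤ K') (hk : K' ≤ M) (hu : u ∈ ZA _ M) : ∃ y ∈ BQ 3 θ (R.deg 0) w 3 s,
      x - y ∈ Fl p3 _ s M ∧ RvJ p3 R s w K K' (x - y) u := by
  obtain ⟨y, hy, h1⟩ := h.ex
  obtain ⟨e, he, h2, h3⟩ := H.raise hw hs h1 hK hM hKK hk hu
    (ZC_DD_Fl (sub_mem h.zc (H.bz hy)) _)
  rw [sub_sub] at h2 h3
  exact ⟨_, add_mem hy (bf_bq he), h2, h3⟩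

/-- a cochain with given representative -/
theorem surj (hs : s < Q) (hK : Inv 3 K) (hK' : Inv 3 K') (hKK : K * J ≤ K')
    (hu : u ∈ R.CyJ s w K K') :
    ∃ x, RvJ p3 R s w K K' x u ∧ DD θ s x ∈ Fl p3 _ (s + 1) K' := by
  obtain ⟨y, hy, h2, h3⟩ := Rs.Phi_surjJ (H.ok' hs) hw hK hK' hKK hu.1 hu.2
  obtain ⟨x, hx, h4, rfl⟩ := exists_rsP p3 hy
  exact ⟨x, ⟨hx, h4, Rs.mem_BdJ.2 h3⟩, by rwa [Fl, mem_comap, H.ic.rsP_DD]⟩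

/-- raising the filtration of a cochain and of the window -/
theorem upv (hs : s < Q) (h : RvJ p3 R s w K K' x u) (hK : Inv 3 K) (hK' : Inv 3 K')
    (hM : Inv 3 M) (hKK : K * J ≤ K') (h1 : M ≤ K) (h2 : K' ≤ M)
    (hu : u ∈ PA 3 (R.deg (s + 1)) w M) (hd : DD θ s x ∈ Fl p3 _ (s + 1) K') :
    ∃ y ∈ BF p3 θ (R.deg 0) w K s, RvJ p3 R s w M K' (x - y) u := by
  obtain ⟨z, h6, h4⟩ := H.surj hw hs hM hK' ((Ideal.mul_mono_left h1).trans hKK) ⟨hu, by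
    simpa using sub_mem (Ph_mem_ZA (R := R) hK' hd) (H.dd hw hs h hK hK' hKK)⟩
  obtain ⟨e, he, h7, h8⟩ := H.raise hw hs.le (RJ.sub h (RJ.mono h6 h1 le_rfl)) hK hK' hKK le_rfl
    (by rw [sub_self]; exact zero_mem _) (by rw [map_sub]; exact sub_mem hd h4)
  rw [sub_right_comm] at h7
  exact ⟨e, he, RJ.of_sub h6 hK' (sub_mem h.cw (H.bf_cw he))
    (by simpa using add_mem (Fl_mono p3 h2 h7) h6.fl) h7⟩

/-- raising the filtration of a class -/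
theorem up (hs : s < Q) (h : RcJ R θ s w K K' x u) (hK : Inv 3 K) (hK' : Inv 3 K')
    (hM : Inv 3 M) (hKK : K * J ≤ K') (h1 : M ≤ K) (h2 : K' ≤ M)
    (hu : u ∈ PA 3 (R.deg (s + 1)) w M) : RcJ R θ s w M K' x u := by
  obtain ⟨y, hy, h3⟩ := h.ex
  obtain ⟨e, he, h4⟩ := H.upv hw hs h3 hK hK' hM hKK h1 h2 hu
    (ZC_DD_Fl (sub_mem h.zc (H.bz hy)) _)
  exact ⟨h.zc, _, add_mem hy (bf_bq he), sub_sub x y e ▸ h4⟩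

/-- the leading term of a cochain -/
theorem lead (hs : s < Q) (hK : Inv 3 K) (hn : Inv 3 Kn) (h1 : K ≤ Kb) (h2 : K * J ≤ Kn)
    (h3 : N ≤ Kn) (hc : R.CyJ s w K Kn ≤ S ⊔ R.BdJ s w Kb K₂) (hx : x ∈ XN R θ s w N)
    (hx' : x ∈ Fl p3 _ s K) : ∃ u ∈ S, RvJ p3 R s w Kb K₂ x u := by
  obtain ⟨u, hu, e, he, h4⟩ := mem_sup.1 (hc (H.ph_cy hw hs hK hn h2 hx.1 hx' (Fl_mono p3 h3 hx.2)))
  exact ⟨u, hu, RJ.congr (RJ.self hx.1 (Fl_mono p3 h1 hx')) (by rwa [← h4, add_sub_cancel_left])⟩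

theorem ax_zero (hs : s ≤ Q) (hX : Xs R θ w 𝒳 N) (hb : Inv 3 Kb) (h2 : Inv 3 K₂)
    (h4 : Kb * J ≤ K₂) (h5 : N ≤ K₂) (hP : Cq (BF p3 θ (R.deg 0) w Kb s) P) (h : Ax 𝒳 K₂ P)
    (hx : x ∈ 𝒳) (hr : RvJ p3 R s w Kb K₂ x 0) : P x := by
  obtain ⟨y, hy, h6, -⟩ := H.raise hw hs hr hb h2 h4 le_rfl (zero_mem _)
    (Fl_mono p3 h5 (hX.le hx).2)
  exact hP y hy x (h _ (sub_mem hx (hX.bq (bf_bq hy))) h6)

/-- **one step along a chain of ideals** -/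
theorem ax_step (hs : s < Q) (hX : Xs R θ w 𝒳 N) (hK : Inv 3 K) (hn : Inv 3 Kn) (hb : Inv 3 Kb)
    (h₂ : Inv 3 K₂) (h1 : K ≤ Kb) (h2 : K * J ≤ Kn) (h3 : N ≤ Kn) (h4 : Kb * J ≤ K₂) (h5 : N ≤ K₂)
    (hP : Cq 𝒰 P) (hB : BF p3 θ (R.deg 0) w Kb s ≤ 𝒰)
    (hc : R.CyJ s w K Kn ≤ (SvJ R Kb K₂ w (𝒰 ⊓ 𝒳) ⊔ S) ⊔ R.BdJ s w Kb K₂)
    (hS : ∀ u ∈ S, u = 0 ∨ ∀ x ∈ 𝒳, RvJ p3 R s w Kb K₂ x u → P x) (h : Ax 𝒳 K₂ P) :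
    Ax 𝒳 K P := fun x hx hx' => by
  obtain ⟨_, h6, h7⟩ := H.lead hw hs hK hn h1 h2 h3 hc (hX.le hx) hx'
  obtain ⟨_, ⟨z, hz, h8⟩, u, hu, rfl⟩ := mem_sup.1 h6
  have h9 := RJ.sub h7 h8
  rw [add_sub_cancel_left] at h9
  refine hP z hz.1 x ((hS u hu).elim (fun e => ?_) fun h => h _ (sub_mem hx hz.2) h9)
  exact H.ax_zero hw hs.le hX hb h₂ h4 h5 (hP.mono hB) h (sub_mem hx hz.2) (e ▸ h9)

/-- the linear form -/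
theorem hx_step (hs : s < Q) (hX : Xs R θ w 𝒳 N) (hK : Inv 3 K) (hn : Inv 3 Kn) (hb : Inv 3 Kb)
    (h₂ : Inv 3 K₂) (h1 : K ≤ Kb) (h2 : K * J ≤ Kn) (h3 : N ≤ Kn) (h4 : Kb * J ≤ K₂) (h5 : N ≤ K₂)
    (hB : BF p3 θ (R.deg 0) w Kb s ≤ 𝒴)
    (hc : R.CyJ s w K Kn ≤ SvJ R Kb K₂ w (𝒴 ⊓ 𝒳) ⊔ R.BdJ s w Kb K₂) (h : Ax 𝒳 K₂ (· ∈ 𝒴)) :
    Ax 𝒳 K (· ∈ 𝒴) :=
  H.ax_step hw hs hX hK hn hb h₂ h1 h2 h3 h4 h5 (.mem le_rfl) hB (S := ⊥)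
    (by rwa [sup_bot_eq]) (fun _ h => .inl h) h

/-- **one step for classes** -/
theorem al_step (hs : s < Q) (hK : Inv 3 K) (hn : Inv 3 Kn) (hb : Inv 3 Kb) (h₂ : Inv 3 K₂)
    (h1 : K ≤ Kb) (h2 : K * J ≤ Kn) (h4 : Kb * J ≤ K₂) (hP : Cq 𝒵 P)
    (hc : R.CyJ s w K Kn ≤ (SpJ R θ Kb K₂ w 𝒵 ⊔ S) ⊔ R.BdJ s w Kb K₂)
    (hS : ∀ u ∈ S, u = 0 ∨ ∀ x, RcJ R θ s w Kb K₂ x u → P x) (h : AlJ R θ w P K₂) :
    AlJ R θ w P K := fun x hx => by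
  obtain ⟨y, hy, h5⟩ := hx.ex
  obtain ⟨_, h6, h7⟩ := H.lead hw hs hK hn h1 h2 bot_le hc
    (ZC_le_XN (sub_mem hx.zc (H.bz hy))) h5.fl
  obtain ⟨_, ⟨z, hz, h8⟩, u, hu, rfl⟩ := mem_sup.1 h6
  have h9 := RcJ.sub ⟨hx.zc, y, hy, h7⟩ h8
  rw [add_sub_cancel_left] at h9
  refine hP z hz x ((hS u hu).elim (fun e => h _ ?_) fun h => h _ h9)
  obtain ⟨y', h10, h11, -⟩ := H.fl hw hs.le h9 hb h₂ h4 le_rfl (e ▸ zero_mem _)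
  exact H.cong (rcJ_any h₂ (sub_mem h9.zc (H.bz h10)) h11) (by rwa [sub_sub_cancel])

/-- **membership** -/
theorem mem (hs : s ≤ Q) (h : RcJ R θ s w K K' x u) (hK : Inv 3 K) (hK' : Inv 3 K')
    (hKK : K * J ≤ K') (hu : u ∈ SpJ R θ K K' w 𝒵 ⊔ R.BdJ s w K K')
    (hi : Ax (ZC 3 θ (R.deg 0) w 3 s) K' (· ∈ 𝒵 ⊔ BQ 3 θ (R.deg 0) w 3 s)) :
    x ∈ 𝒵 ⊔ BQ 3 θ (R.deg 0) w 3 s := by
  obtain ⟨_, ⟨z, hz, h1⟩, e, he, rfl⟩ := mem_sup.1 hu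
  have h2 := (h.sub h1).congr (u' := 0) (by simpa using he)
  obtain ⟨y, hy, h3, -⟩ := H.fl hw hs h2 hK hK' hKK le_rfl (zero_mem _)
  simpa using add_mem (add_mem (hi _ (sub_mem h2.zc (H.bz hy)) h3) (mem_sup_right hy))
    (mem_sup_left hz)

/-- **existence of a cochain with given leading terms and differential of filtration `N`** -/
theorem exN (hs : s < Q) (hK : Inv 3 K) (hK' : Inv 3 K') (h₂ : Inv 3 K₂) (hKK : K * J ≤ K')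
    (h1 : M ≤ K) (h2 : M ≤ K₂) (h3 : K' ≤ K₂) (hu : u ∈ R.CyJ s w K K')
    (h : Ax (BQ 3 θ (R.deg 0) w 3 (s + 1)) K'
      (· ∈ BF p3 θ (R.deg 0) w M (s + 1) ⊔ Fl p3 _ (s + 1) N)) :
    u ∈ SvJ R K K₂ w (XN R θ s w N) := by
  obtain ⟨x, h4, h5⟩ := H.surj hw hs hK hK' hKK hu
  obtain ⟨_, ⟨y, hy, rfl⟩, e, he, h6⟩ := mem_sup.1 (h _ (mem_sup_left ⟨x, h4.cw, rfl⟩) h5)
  have h7 := sub_mem h4.cw hy.1
  exact ⟨x - y, mem_XN.2 ⟨h7, by rwa [map_sub, ← h6, add_sub_cancel_left]⟩,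
    RJ.of_sub (RJ.mono h4 le_rfl h3) h₂ h7 (sub_mem h4.fl (Fl_mono p3 h1 hy.2))
      (by simpa using Fl_mono p3 h2 hy.2)⟩

omit hw in
theorem exC (h₂ : Inv 3 K₂) (h : u ∈ SvJ R K K₂ w (XN R θ s w ⊥)) :
    ∃ x, RcJ R θ s w K K₂ x u := by
  obtain ⟨x, hx, h1⟩ := h
  obtain ⟨z, hz, h2⟩ := H.exists_zc hx
  exact ⟨z, .of hz (RJ.of_sub h1 h₂ hz.1
    (by simpa using add_mem (Fl_mono p3 bot_le h2) h1.fl) (Fl_mono p3 bot_le h2))⟩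

/-- **detection of coboundaries** -/
theorem bd_of {x : G 0 → Cob Laz (s + 1)} {u : G (s + 2) → AA (ZMod 3)} (hs : s < Q)
    (h : RcJ R θ (s + 1) w K K' x u) (hK : Inv 3 K) (hN : Inv 3 N) (hM : Inv 3 M) (h₂ : Inv 3 K₂)
    (hKK : K * J ≤ K') (h1 : K' ≤ N) (h2 : K ≤ M) (h3 : K' ≤ K₂) (h4 : N' ≤ K₂) (h5 : M * J ≤ K₂)
    (hu : u ∈ ZA _ N) (hd : Ax (XN R θ s w N) ⊤ (· ∈ Fl p3 _ s M ⊔ XN R θ s w N'))
    (hx : x ∈ BQ 3 θ (R.deg 0) w 3 (s + 1)) : u ∈ R.BdJ (s + 1) w M K₂ := by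
  obtain ⟨e, he, h6, h7⟩ := H.fl hw hs h hK hN hKK h1 hu
  obtain ⟨y, hy, v, hv, h8⟩ := mem_BQ_succ.1 (sub_mem hx he)
  have h9 : ∀ K, x - e - DD θ s y ∈ Fl p3 _ (s + 1) K := fun K =>
    QW_le_Fl K (mem_QW.2 ⟨v, hv, by rw [← h8, add_sub_cancel_left]⟩)
  obtain ⟨y', h10, z, h11, rfl⟩ := mem_sup.1 (hd y (mem_XN.2 ⟨hy, by
    simpa using sub_mem h6 (h9 _)⟩) (mem_Fl_top p3 y))
  have h12 := add_mem (H.of_bf hw hs hM h5 ⟨y', ⟨by simpa using sub_mem hy h11.1, h10⟩, rfl⟩).bd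
    (Rs.mem_BdJ_of_ZA (Ph_mem_ZA (R := R) h₂ (add_mem (Fl_mono p3 h4 (mem_XN.1 h11).2) (h9 _))))
  rw [sub_zero, ← map_add, ← add_assoc, ← map_add, add_sub_cancel] at h12
  simpa using sub_mem h12 (RJ.mono h7 h2 h3).bd

/-- the representative of a coboundary -/
theorem ph_bq (hs : s ≤ Q) (h2 : J ≤ K₂) (hx : x ∈ BQ 3 θ (R.deg 0) w 3 s) :
    Ph p3 R s x ∈ R.BdJ s w ⊤ K₂ := by_contra fun h =>
  H.ne hw hs (.of (H.bz hx) (RJ.self (H.bz hx).1 (mem_Fl_top p3 x))) le_rfl h2 h hx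

/-- **no long differential hits a level** -/
theorem nb {T' : ℕ} (e : w = T') (hs : s < Q) (hn : Inv 3 Kn) (h1 : II 3 _ ^ k * J ≤ Kn)
    (h2 : J ≤ K₂) (h3 : II 3 _ ^ (k + 1) ≤ K₂)
    (hc : R.CyJ s w (II 3 _ ^ k) Kn ≤ S ⊔ R.Bd s w (k - 2) (k + 1))
    (hS : ∀ u ∈ S, u ∈ R.BdJ s w ⊤ K₂ → u = 0) : Nb R θ s T' k := fun x hx hx' => by
  subst e
  obtain ⟨u, hu, e, he, h4⟩ := mem_sup.1 (hc (H.ph_cy hw hs (inv_II.pow k) hn h1 (H.bz hx).1 hx'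
    (ZC_DD_Fl (H.bz hx) _)))
  have h5 := sub_mem (H.ph_bq hw hs.le h2 hx) (Rs.BdJ_mono le_top h3 he)
  rw [← h4, add_sub_cancel_right] at h5
  rwa [← h4, hS u hu h5, zero_add]

end WdJ

end Vale.Agent.P236EL

end
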