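import Vale.Agent.P236J.Defs
import Vale.Agent.P236EL.Cn

/-!
# P236JX / Cls : cohomology classes and their representatives in a general window
-/

noncomputable section

namespace Vale.Agent.P236EL

open Vale.Agent.P251.F Vale.Agent.P251.F.F3 Vale.Agent.P257.H80 LawRing MvPolynomial Ch
open Vale.Agent.P251.I Vale.Agent.P236SY Vale.Agent.P236F Vale.Agent.P236R AddSubgroup

variable [hp : Fact (Nat.Prime 3)] {G : ℕ → Type} [∀ q, Fintype (G q)]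
  (R : Rs 3 (ZMod 3) G) (θ : G 0 → G 0 → Cob Laz 1)

/-- the class of the cocycle `x` has filtration `K` and is represented by `u` modulo `K'` -/
structure RcJ (s : ℕ) (w : ℤ) (K K' : Ideal (AA (ZMod 3))) (x : G 0 → Cob Laz s)
    (u : G (s + 1) → AA (ZMod 3)) : Prop where
  zc : x ∈ ZC 3 θ (R.deg 0) w 3 s
  ex : ∃ y ∈ BQ 3 θ (R.deg 0) w 3 s, RvJ p3 R s w K K' (x - y) u

variable {R θ} {s a b k Q : ℕ} {w w' T : ℤ} {x x' : G 0 → Cob Laz s}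
  {u u' : G (s + 1) → AA (ZMod 3)} {𝒳 𝒰 𝒵 𝒵' : AddSubgroup (G 0 → Cob Laz s)}
  {J K K' K₁ K₁' Kn Kb K₂ M N : Ideal (AA (ZMod 3))} {S : AddSubgroup (G (s + 1) → AA (ZMod 3))}

namespace RJ

theorem self (hx : x ∈ CW 3 Laz (R.deg 0) w s) (hx' : x ∈ Fl p3 _ s K) :
    RvJ p3 R s w K K' x (Ph p3 R s x) := ⟨hx, hx', by rw [sub_self]; exact zero_mem _⟩

theorem zero : RvJ p3 R s w K K' 0 0 :=
  ⟨zero_mem _, zero_mem _, by rw [map_zero, sub_self]; exact zero_mem _⟩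

theorem add (h : RvJ p3 R s w K K' x u) (h' : RvJ p3 R s w K K' x' u') :
    RvJ p3 R s w K K' (x + x') (u + u') :=
  ⟨add_mem h.cw h'.cw, add_mem h.fl h'.fl, by
    rw [map_add, add_sub_add_comm]; exact add_mem h.bd h'.bd⟩

theorem zsmul (h : RvJ p3 R s w K K' x u) (c : ℤ) : RvJ p3 R s w K K' (c • x) (c • u) :=
  ⟨zsmul_mem h.cw c, zsmul_mem h.fl c, by rw [map_zsmul, ← smul_sub]; exact zsmul_mem h.bd c⟩

theorem neg (h : RvJ p3 R s w K K' x u) : RvJ p3 R s w K K' (-x) (-u) := by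
  simpa using zsmul h (-1)

theorem sub (h : RvJ p3 R s w K K' x u) (h' : RvJ p3 R s w K K' x' u') :
    RvJ p3 R s w K K' (x - x') (u - u') := by simpa only [sub_eq_add_neg] using add h (neg h')

theorem mono (h : RvJ p3 R s w K K' x u) (h1 : K ≤ K₁) (h2 : K' ≤ K₁') :
    RvJ p3 R s w K₁ K₁' x u := ⟨h.cw, Fl_mono p3 h1 h.fl, Rs.BdJ_mono h1 h2 h.bd⟩

theorem congr (h : RvJ p3 R s w K K' x u) (h' : u - u' ∈ R.BdJ s w K K') :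
    RvJ p3 R s w K K' x u' := ⟨h.cw, h.fl, by simpa using add_mem h.bd h'⟩

/-- changing the cochain by a term of high filtration -/
theorem of_sub (h : RvJ p3 R s w K K' x u) (hK' : Inv 3 K') (hx : x' ∈ CW 3 Laz (R.deg 0) w s)
    (h1 : x' ∈ Fl p3 _ s K) (h2 : x' - x ∈ Fl p3 _ s K') : RvJ p3 R s w K K' x' u :=
  ⟨hx, h1, by
    simpa using add_mem h.bd (Rs.mem_BdJ_of_ZA (Ph_mem_ZA (R := R) hK' h2))⟩

end RJ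

namespace RcJ

theorem of (hx : x ∈ ZC 3 θ (R.deg 0) w 3 s) (h : RvJ p3 R s w K K' x u) :
    RcJ R θ s w K K' x u := ⟨hx, 0, zero_mem _, by rwa [sub_zero]⟩

theorem zero : RcJ R θ s w K K' 0 0 := of (zero_mem _) RJ.zero

theorem add (h : RcJ R θ s w K K' x u) (h' : RcJ R θ s w K K' x' u') :
    RcJ R θ s w K K' (x + x') (u + u') := by
  obtain ⟨y, hy, h1⟩ := h.ex
  obtain ⟨y', hy', h2⟩ := h'.ex
  exact ⟨add_mem h.zc h'.zc, _, add_mem hy hy', add_sub_add_comm x x' y y' ▸ RJ.add h1 h2⟩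

theorem zsmul (h : RcJ R θ s w K K' x u) (c : ℤ) : RcJ R θ s w K K' (c • x) (c • u) := by
  obtain ⟨y, hy, h1⟩ := h.ex
  exact ⟨zsmul_mem h.zc c, _, zsmul_mem hy c, smul_sub c x y ▸ RJ.zsmul h1 c⟩

theorem nsmul (h : RcJ R θ s w K K' x u) (c : ℕ) : RcJ R θ s w K K' (c • x) (c • u) := by
  simpa using h.zsmul c

theorem neg (h : RcJ R θ s w K K' x u) : RcJ R θ s w K K' (-x) (-u) := by
  simpa using h.zsmul (-1)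

theorem sub (h : RcJ R θ s w K K' x u) (h' : RcJ R θ s w K K' x' u') :
    RcJ R θ s w K K' (x - x') (u - u') := by simpa only [sub_eq_add_neg] using h.add h'.neg

theorem mono (h : RcJ R θ s w K K' x u) (h1 : K ≤ K₁) (h2 : K' ≤ K₁') :
    RcJ R θ s w K₁ K₁' x u := ⟨h.zc, h.ex.imp fun _ h => ⟨h.1, RJ.mono h.2 h1 h2⟩⟩

theorem congr (h : RcJ R θ s w K K' x u) (h' : u - u' ∈ R.BdJ s w K K') :
    RcJ R θ s w K K' x u' := ⟨h.zc, h.ex.imp fun _ h => ⟨h.1, RJ.congr h.2 h'⟩⟩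

/-- maps which preserve cocycles and coboundaries -/
theorem map {G' : ℕ → Type} [∀ q, Fintype (G' q)] {R' : Rs 3 (ZMod 3) G'}
    {θ' : G' 0 → G' 0 → Cob Laz 1} {s' : ℕ} (f : (G 0 → Cob Laz s) →+ (G' 0 → Cob Laz s'))
    {v : G' (s' + 1) → AA (ZMod 3)} (h : RcJ R θ s w K K' x u)
    (hz : f x ∈ ZC 3 θ' (R'.deg 0) w' 3 s')
    (hb : ∀ y ∈ BQ 3 θ (R.deg 0) w 3 s, f y ∈ BQ 3 θ' (R'.deg 0) w' 3 s')
    (hv : ∀ y ∈ BQ 3 θ (R.deg 0) w 3 s, RvJ p3 R s w K K' (x - y) u →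
      RvJ p3 R' s' w' K₁ K₁' (f (x - y)) v) : RcJ R' θ' s' w' K₁ K₁' (f x) v := by
  obtain ⟨y, hy, h1⟩ := h.ex
  exact ⟨hz, _, hb y hy, map_sub f x y ▸ hv y hy h1⟩

theorem iff_rc : RcJ R θ s w (II 3 _ ^ a) (II 3 _ ^ b) x u ↔ Rc R θ s w a b x u :=
  ⟨fun h => ⟨h.zc, h.ex.imp fun _ h => ⟨h.1, h.2.rv⟩⟩,
    fun h => ⟨h.zc, h.ex.imp fun _ h => ⟨h.1, h.2.rvJ⟩⟩⟩

theorem rc (h : RcJ R θ s w K K' x u) (h1 : K ≤ II 3 _ ^ a) (h2 : K' ≤ II 3 _ ^ b) :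
    Rc R θ s w a b x u := iff_rc.1 (h.mono h1 h2)

end RcJ

theorem Rc.rcJ (h : Rc R θ s w a b x u) (h1 : II 3 _ ^ a ≤ K) (h2 : II 3 _ ^ b ≤ K') :
    RcJ R θ s w K K' x u := (RcJ.iff_rc.2 h).mono h1 h2

variable (R θ) in
/-- the vectors which represent classes of elements of `𝒵` -/
def SpJ (K K' : Ideal (AA (ZMod 3))) (w : ℤ) (𝒵 : AddSubgroup (G 0 → Cob Laz s)) :
    AddSubgroup (G (s + 1) → AA (ZMod 3)) where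
  carrier := {u | ∃ z ∈ 𝒵, RcJ R θ s w K K' z u}
  zero_mem' := ⟨0, zero_mem _, RcJ.zero⟩
  add_mem' := fun ⟨_, h1, h2⟩ ⟨_, h3, h4⟩ => ⟨_, add_mem h1 h3, h2.add h4⟩
  neg_mem' := fun ⟨_, h1, h2⟩ => ⟨_, neg_mem h1, h2.neg⟩

variable (R) in
/-- the vectors which represent elements of `𝒰` -/
def SvJ (K K' : Ideal (AA (ZMod 3))) (w : ℤ) (𝒰 : AddSubgroup (G 0 → Cob Laz s)) :
    AddSubgroup (G (s + 1) → AA (ZMod 3)) where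
  carrier := {u | ∃ z ∈ 𝒰, RvJ p3 R s w K K' z u}
  zero_mem' := ⟨0, zero_mem _, RJ.zero⟩
  add_mem' := fun ⟨_, h1, h2⟩ ⟨_, h3, h4⟩ => ⟨_, add_mem h1 h3, RJ.add h2 h4⟩
  neg_mem' := fun ⟨_, h1, h2⟩ => ⟨_, neg_mem h1, RJ.neg h2⟩

theorem SvJ_mono (h : 𝒰 ≤ 𝒵) (h1 : K ≤ K₁) (h2 : K' ≤ K₁') :
    SvJ R K K' w 𝒰 ≤ SvJ R K₁ K₁' w 𝒵 := fun _ ⟨z, h3, h4⟩ => ⟨z, h h3, RJ.mono h4 h1 h2⟩

theorem SpJ_le (h : 𝒵 ⊓ ZC 3 θ (R.deg 0) w 3 s ≤ 𝒰) (h' : BQ 3 θ (R.deg 0) w 3 s ≤ 𝒰) :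
    SpJ R θ K K' w 𝒵 ≤ SvJ R K K' w 𝒰 :=
  fun _ ⟨_, h1, h2, _, h3, h4⟩ => ⟨_, sub_mem (h ⟨h1, h2⟩) (h' h3), h4⟩

theorem Sp_le_SpJ (h1 : II 3 _ ^ a ≤ K) (h2 : II 3 _ ^ b ≤ K') :
    Sp R θ a b w 𝒵 ≤ SpJ R θ K K' w 𝒵 := fun _ ⟨z, h3, h4⟩ => ⟨z, h3, h4.rcJ h1 h2⟩

variable [DecidableEq (G 0)]

variable (R θ) in
/-- a resolution modulo three whose curvature lies in `J` -/
structure WdJ (J : Ideal (AA (ZMod 3))) (Q : ℕ) (T : ℤ) : Prop where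
  ic : IC p3 R θ
  ok : R.OkJ (RingHom.id _) J Q T
  nn : ∀ c, 0 ≤ R.deg 0 c
  mc : MC θ

namespace WdJ

variable (H : WdJ R θ J Q T)

include H

theorem ok' {n : ℕ} (hn : n ≤ Q) : R.OkJ (RingHom.id _) J n T := H.ok.mono hn le_rfl

theorem bz : BQ 3 θ (R.deg 0) w 3 s ≤ ZC 3 θ (R.deg 0) w 3 s := H.ic.BQ_le_ZC dvd_rfl

theorem cong (h : RcJ R θ s w K K' x u) (h' : x' - x ∈ BQ 3 θ (R.deg 0) w 3 s) :
    RcJ R θ s w K K' x' u := by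
  obtain ⟨y, hy, h1⟩ := h.ex
  exact ⟨by simpa using add_mem (H.bz h') h.zc, _, add_mem h' hy, by
    rwa [← sub_sub, sub_sub_cancel]⟩

theorem bf_cw : BF p3 θ (R.deg 0) w K s ≤ CW 3 Laz (R.deg 0) w s :=
  (BF_le_BC p3 _ _ _ _ _).trans (BC_le_CW H.ic.wt w s)

omit H [DecidableEq (G 0)] in
theorem bf_bq : BF p3 θ (R.deg 0) w K s ≤ BQ 3 θ (R.deg 0) w 3 s :=
  (BF_le_BC p3 _ _ _ _ _).trans le_sup_left

variable (hw : w ≤ T)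

include hw

theorem ph_dd (hs : s < Q) (hK : Inv 3 K) (hx : x ∈ CW 3 Laz (R.deg 0) w s)
    (hx' : x ∈ Fl p3 _ s K) :
    Ph p3 R (s + 1) (DD θ s x) - R.sd (s + 1) (Ph p3 R s x) ∈ ZA _ (K * J) := by
  rw [Ph_apply, H.ic.rsP_DD]
  exact Rs.Phi_chain H.ok.inv (H.ok' hs).k1 hw hK (rsP_mem p3 hx hx')

theorem dd (hs : s < Q) (h : RvJ p3 R s w K K' x u) (hK : Inv 3 K) (hK' : Inv 3 K')
    (hKK : K * J ≤ K') : Ph p3 R (s + 1) (DD θ s x) - R.sd (s + 1) u ∈ ZA _ K' := by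
  obtain ⟨y, hy, h1⟩ := Rs.mem_BdJ.1 h.bd
  have h3 := add_mem (add_mem (Rs.ZA_mono hKK (H.ph_dd hw hs hK h.cw h.fl))
    (Rs.sd_mem_ZA (R := R) hK' h1))
    (Rs.ZA_mono hKK (Rs.sd_sd H.ok.inv (H.ok' hs).k1 hw hK hy))
  rw [map_sub, map_sub] at h3
  rwa [add_assoc (_ - _), sub_add_cancel, sub_add_sub_cancel] at h3

theorem ph_cy (hs : s < Q) (hK : Inv 3 K) (hn : Inv 3 Kn) (h1 : K * J ≤ Kn)
    (hx : x ∈ CW 3 Laz (R.deg 0) w s) (hx' : x ∈ Fl p3 _ s K)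
    (hd : DD θ s x ∈ Fl p3 _ (s + 1) Kn) : Ph p3 R s x ∈ R.CyJ s w K Kn :=
  ⟨Ph_mem hK hx hx', by
    simpa using sub_mem (Ph_mem_ZA (R := R) hn hd) (H.dd hw hs (RJ.self hx hx') hK hn h1)⟩

theorem of_bf (hs : s ≤ Q) (hK : Inv 3 K) (hKK : K * J ≤ K')
    (hx : x ∈ BF p3 θ (R.deg 0) w K s) : RvJ p3 R s w K K' x 0 := by
  refine ⟨H.bf_cw hx, H.ic.BF_le_Fl hK hx, ?_⟩
  rw [sub_zero]
  rcases s with _ | s
  · rw [mem_bot.1 hx, map_zero]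
    exact zero_mem _
  · obtain ⟨y, hy, rfl⟩ := hx
    exact Rs.mem_BdJ.2 ⟨_, Ph_mem hK hy.1 hy.2,
      Rs.ZA_mono hKK (H.ph_dd hw hs hK hy.1 hy.2)⟩

/-- improving the precision -/
theorem refine (hs : s < Q) (h : RvJ p3 R s w K K' x u) (hK : Inv 3 K) (hn : Inv 3 Kn)
    (h1 : K * J ≤ Kn) (hu : u ∈ R.CyJ s w K Kn) (hd : DD θ s x ∈ Fl p3 _ (s + 1) Kn)
    (h3 : R.CyJ s w K' Kn ≤ S ⊔ R.BdJ s w K K₂) : ∃ v ∈ S, RvJ p3 R s w K K₂ x (u + v) := by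
  obtain ⟨y, hy, h2⟩ := Rs.mem_BdJ.1 h.bd
  have h5 := sub_mem (H.ph_cy hw hs hK hn h1 h.cw h.fl hd) hu
  have h4 : Ph p3 R s x - u - R.sd s y ∈ R.CyJ s w K' Kn := by
    refine Rs.mem_CyJ.2 ⟨fun i => ⟨(sub_mem (Rs.mem_CyJ.1 h5).1 (Rs.sd_mem_PA hK hy) i).1, h2 i⟩, ?_⟩
    rw [map_sub]
    exact sub_mem (Rs.mem_CyJ.1 h5).2 (Rs.ZA_mono h1 (Rs.sd_sd H.ok.inv (H.ok' hs).k1 hw hK hy))
  obtain ⟨v, hv, e, he, h6⟩ := mem_sup.1 (h3 h4)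
  refine ⟨v, hv, h.cw, h.fl, ?_⟩
  rw [← sub_sub, sub_eq_iff_eq_add.1 h6.symm, add_assoc, add_sub_cancel_left]
  exact add_mem he (mem_sup_left ⟨y, hy, rfl⟩)

theorem ext (hs : s < Q) (h : RcJ R θ s w K K' x u) (hK : Inv 3 K) (hn : Inv 3 Kn)
    (h1 : K * J ≤ Kn) (hu : u ∈ R.CyJ s w K Kn) (h3 : R.CyJ s w K' Kn ≤ S ⊔ R.BdJ s w K K₂) :
    ∃ v ∈ S, RcJ R θ s w K K₂ x (u + v) := by
  obtain ⟨y, hy, h2⟩ := h.ex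
  obtain ⟨v, hv, h4⟩ := H.refine hw hs h2 hK hn h1 hu (ZC_DD_Fl (sub_mem h.zc (H.bz hy)) _) h3
  exact ⟨v, hv, h.zc, y, hy, h4⟩

/-- **non-vanishing** -/
theorem ne (hs : s ≤ Q) (h : RcJ R θ s w K K' x u) (h1 : K' ≤ K₂) (h2 : J ≤ K₂)
    (hu : u ∉ R.BdJ s w ⊤ K₂) : x ∉ BQ 3 θ (R.deg 0) w 3 s := fun hx => by
  obtain ⟨y, hy, h3⟩ := h.ex
  obtain ⟨e, he, v, hv, h4⟩ := mem_BQ.1 (sub_mem hx hy)
  have h5 : e ∈ BF p3 θ (R.deg 0) w ⊤ s := by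
    rcases s with _ | s
    · exact he
    · obtain ⟨y, hy, rfl⟩ := he
      exact ⟨y, ⟨hy, mem_Fl_top p3 y⟩, rfl⟩
  have h6 := add_mem (H.of_bf hw hs inv_top (K' := K₂) (by rwa [Ideal.top_mul]) h5).bd
    (Rs.mem_BdJ_of_ZA (Rs.ZA_mono bot_le (Ph_mem_ZA (hQ := p3) (R := R) inv_bot
      (QW_le_Fl _ (mem_QW.2 ⟨v, hv, rfl⟩)))))
  rw [sub_zero, ← map_add, h4] at h6
  exact hu (by simpa using sub_mem h6 (RJ.mono h3 le_top h1).bd)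

end WdJ

end Vale.Agent.P236EL

end
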