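import Vale.Agent.P236JX.PhiC
import Vale.Agent.P236JX.Div
import Vale.Agent.P236JT.Fa
import Vale.Agent.P236JG.Base

/-!
# P236JX / PhiA : the class of stem 229 of `C α`
-/

noncomputable section

namespace Vale.Agent.P236JX

open Vale.Agent.P251.F Vale.Agent.P251.I Vale.Agent.P236SY Vale.Agent.P236R
open Vale.Agent.P236EL Vale.Agent.P236KE Vale.Agent.P236K3 Vale.Agent.P236F AddSubgroup
open Vale.Agent.P236KE.S90 Vale.Agent.P236JT Vale.Agent.P236JG Vale.Agent.P236J3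

theorem lfM_bn {E : JD} {s T : ℕ} {c c' : Cs} {o : List Tr → WJ} {ls : List (List Tr)}
    {l : List WJ} (h : WJ.lfM E s T c c' o ls l = true) :
    ∃ r, E.bn s T (grd (Vis c c') r) = true := ⟨_, h⟩

variable [hp : Fact (Nat.Prime 3)] {t : Cob Laz 1}

theorem phiA (h : HK) (ht : IsT1 3 t) {x x₄ : Cob Laz 1} {c c₄ : Cob Laz 2} (hx : Grk 1 1 x c)
    (h₄ : Grk 0 4 x₄ c₄) : ∃ a ∈ ZT t 58 3, ∃ g ∈ ZS 83 9,
      lc _ (zero_add 3) v1 a ∈ BT t 59 3 ∧ ![a 1, 0, 0] ∉ BY t 57 3 ∧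
        lc _ (show 2 + 7 = 9 from rfl) c₄ (lc _ (show 2 + 5 = 7 from rfl) c
          (lb t 3 rfl fun _ => a 1)) - lc _ (zero_add 9) v1 g ∈ BS 84 9 := by
  have W := w3 h ht
  obtain ⟨a1, a2⟩ := grd_spec a229
  obtain ⟨a2, a3⟩ := grd_spec a2
  obtain ⟨-, -, a, ha⟩ := W.A.exJ (W.A.exCF a1) (W.A.hi (W.A.htAF a2)) (by decide)
  obtain ⟨u, hu, h1⟩ := rep0 W.A a3 ha.zc
  have h2 := ((lf_nm (W.A.cx.ok 3) 58 _ _).v1 W.A ht (zero_add 3)).memB W.A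
    (hv W.A (grd_spec b229).2) (grd_spec b229).1 h1 hu
  obtain ⟨_, rfl, h3⟩ := (((((lf_nm (W.A.cx.ok 3) 58 [(0, 0)] [(1, 1)]).jA W).bm W.S ht rfl).b2 W.S
    (f := 0) hx (show 2 + 5 = 7 from rfl)).b0 W.S (k := 2) h₄ (show 2 + 7 = 9 from rfl)).rcM W.S
      (𝒵 := ⊥) .nil c229 (h1.mono le_rfl (Le.mI rfl)) hu
  obtain ⟨r, hr⟩ := lfM_bn c229
  obtain ⟨g, hg, -, h4⟩ := W.S.div ht (w := 83) rfl h3 hr
  have h5 := (W.e0 (W.jA (cv_nm (W.A.cx.ok 3) ha))).neJ W.Y d229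
  have h6 := ha.zc
  rw [degA] at h2 h6
  rw [degY] at h5
  rw [P236JG.degS] at hg h4
  rw [sub_zero, pow_one] at h4
  exact ⟨a, h6, g, hg, h2, h5, h4⟩

end Vale.Agent.P236JX

end
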