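import Vale.Agent.P236JG.Dat
import Vale.Agent.P236JY.EmF
import Vale.Agent.P236JT.Lf

/-!
# P236JX / PhiC : checks for the class of stem 229 of `C α`
-/

namespace Vale.Agent.P236JX

open Vale.Agent.P236EL Vale.Agent.P236KE Vale.Agent.P236K3 Vale.Agent.P236F Vale.Agent.P236JT
  Vale.Agent.P236JG

/-- the leading terms -/
def l229 : List Tr := [⟨6, 0, 0, 0, 1, 1⟩, ⟨37, 0, 0, 3, 0, 2⟩]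

/-- all classes modulo the cube of `v_1` -/
def k229 : List (List Tr) :=
  [[⟨0, 1, 10, 1, 0, 2⟩, ⟨35, 1, 11, 0, 0, 1⟩, ⟨36, 2, 10, 0, 0, 1⟩, ⟨31, 1, 13, 0, 0, 2⟩],
  [⟨34, 2, 8, 1, 0, 1⟩, ⟨0, 1, 10, 1, 0, 1⟩, ⟨35, 1, 11, 0, 0, 2⟩, ⟨31, 1, 13, 0, 0, 1⟩],
  [⟨40, 1, 8, 0, 0, 1⟩, ⟨4, 1, 8, 1, 0, 2⟩, ⟨5, 2, 7, 1, 0, 1⟩, ⟨0, 1, 10, 1, 0, 1⟩,
  ⟨35, 1, 11, 0, 0, 1⟩, ⟨31, 1, 13, 0, 0, 1⟩], [⟨6, 0, 0, 0, 1, 1⟩, ⟨37, 0, 0, 3, 0, 2⟩,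
  ⟨9, 0, 2, 2, 0, 1⟩, ⟨15, 1, 2, 1, 0, 2⟩, ⟨31, 1, 0, 4, 0, 2⟩, ⟨31, 1, 3, 0, 1, 1⟩,
  ⟨34, 0, 2, 3, 0, 1⟩, ⟨41, 0, 4, 1, 0, 2⟩, ⟨46, 1, 5, 0, 0, 2⟩, ⟨33, 2, 2, 3, 0, 2⟩,
  ⟨7, 0, 6, 1, 0, 2⟩, ⟨39, 1, 5, 1, 0, 2⟩, ⟨9, 1, 5, 1, 0, 1⟩, ⟨12, 0, 7, 0, 0, 2⟩,
  ⟨2, 0, 6, 2, 0, 2⟩, ⟨34, 1, 5, 2, 0, 1⟩, ⟨0, 0, 7, 2, 0, 2⟩, ⟨35, 0, 8, 1, 0, 1⟩,
  ⟨33, 0, 9, 1, 0, 2⟩, ⟨5, 2, 7, 1, 0, 1⟩, ⟨31, 0, 10, 1, 0, 2⟩, ⟨35, 1, 11, 0, 0, 2⟩,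
  ⟨31, 1, 13, 0, 0, 1⟩]]

theorem a229 : grd ((eA eJ).exCF 3 58 1 3 l229) (grd ((eA eJ).htAF 4 58 3 47)
    ((eA eJ).geF 3 58 [(0, 0)] [(3, 3)] [(0, 0)] [(3, 3)] k229)) = true := by
  decide +kernel

theorem b229 : grd (WJ.lfM (eA eJ) 3 59 [(0, 0)] [(3, 3)] (fun m =>
    (WJ.nm (eA eJ) 3 58 [(0, 0)] [(3, 3)] m).cvm (eA eJ) 90 3 1) k229 [])
      ((eA eJ).htAF 3 59 0 53) = true := by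
  decide +kernel

theorem c229 : WJ.lfM eJ 9 84 [(0, 0)] [(1, 1)] (fun m =>
    ((((WJ.nm (eA eJ) 3 58 [(0, 0)] [(1, 1)] m).cjA eJ 3).cbm eJ 90 3).cb2 eJ 90 5 1).cb0 eJ 90 7 2)
      k229 [] = true := by
  decide +kernel

theorem d229 : (((WJ.nm (eA eJ) 3 58 [(0, 1)] [(0, 4)] l229).cjA eJ 3).ce0 eJ 3).no (eY eJ) 3 57
    [(0, 0)] [(3, 3), (0, 4)] [] = true := by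
  decide +kernel

end Vale.Agent.P236JX
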