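import Vale.Agent.P236JX.Top

/-!
# P236JX / Rule : the rules of the calculus of windows
-/

noncomputable section

namespace Vale.Agent.P236JX

open MvPolynomial Vale.Agent.P236EL Vale.Agent.P236KE Vale.Agent.P236K2 Vale.Agent.P236K3
  Vale.Agent.P236JF Vale.Agent.P236JR Vale.Agent.P236J3 Vale.Agent.P236F Vale.Agent.P251.F
  Vale.Agent.P236SY AddSubgroup

variable [Fact (Nat.Prime 3)] {G : ℕ → Type} [∀ q, Fintype (G q)] {R : Rs 3 K G}
  {θ : G 0 → G 0 → Cob Laz 1} {ix : ∀ q, G (q + 1) → ℕ} {s T : ℕ}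
  {c c' c1 c2 c3 cb m n n' : CN} {l l' : List Tr} {ls ls' : List (List Tr)}
  {x : G 0 → Cob Laz s} {𝒵 : AddSubgroup (G 0 → Cob Laz s)} {P : (G 0 → Cob Laz s) → Prop}
  {C : List Tr → Bool} {k : ℕ} [DecidableEq (G 0)] {E : JD} {Tm s3 s4 : ℕ}

namespace WxJ

variable (H : WxJ R θ E ix Tm s3 s4)

include H

theorem top {𝒳 : AddSubgroup (G 0 → Cob Laz s)} {N : Ideal A} (hX : Xs R θ T 𝒳 N)
    (hc : Le c [(0, T + 1)] = true) (h : Ax 𝒳 ⊥ P) : Ax 𝒳 (mI c) P :=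
  H.wd.ax_top hX (n := T + 1) (by omega) (mI_pow (T + 1) ▸ Le.mI hc) h

/-! ### chains for coboundaries -/

theorem htTop (hc : Le c [(0, T + 1)] = true) : HT R θ s T c m n :=
  H.top (H.wd.xsB (N := ⊥)) hc fun _ _ hx => mem_sup_right (Fl_mono p3 bot_le hx)

theorem htGen (c1 cb : CN) (ls : List (List Tr)) (hc : E.ge s T c c1 cb c2 ls = true)
    (hm : Le cb m = true) (hS : ∀ u ∈ spn (ix s) ls, u = 0 ∨ ∀ x,
      RcJ R θ s T (mI cb) (mI c2) x u → x ∉ BQ 3 θ (R.deg 0) T 3 s)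
    (h : HT R θ s T c2 m n) : HT R θ s T c m n := by
  obtain ⟨h1, h2, h3, h4, h5, h6⟩ := H.ge hc
  exact H.wd.ax_step h2 h1 H.wd.xsB (inv_mI _) (inv_mI _) (inv_mI _) (inv_mI _) h4 h3 bot_le h5
    bot_le (.mem le_rfl) ((BF_mono p3 _ _ _ (Le.mI hm) _).trans le_sup_left)
    (h6.trans (sup_le_sup_right le_sup_right _)) (fun u hu => (hS u hu).imp_right
      fun h x hx h7 => (h x (.of (H.wd.bz hx) h7) hx).elim) h

/-- a step without classes -/
theorem htStep (c1 cb : CN) (hc : E.ge s T c c1 cb c2 [] = true) (hm : Le cb m = true)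
    (h : HT R θ s T c2 m n) : HT R θ s T c m n := H.htGen c1 cb [] hc hm (fun _ h => .inl h) h

/-- the classes are detected by a test -/
theorem htTest (c1 cb : CN) (ls : List (List Tr)) (hc : E.ge s T c c1 cb c2 ls = true)
    (hm : Le cb m = true) (hS : SJ R θ ix T cb c2 C fun x : G 0 → Cob Laz s =>
      x ∉ BQ 3 θ (R.deg 0) T 3 s) (hz : nzC ls C = true) (h : HT R θ s T c2 m n) :
    HT R θ s T c m n := H.htGen c1 cb ls hc hm (fun _ hu => (nzC_spec hz hu).imp_right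
  fun ⟨m, h1, h2⟩ x hx => hS m x h1 (by rwa [← h2] at hx)) h

theorem ne_of {u : G (s + 1) → A} (hi : E.id s T [(0, 0)] c3 ls = true) (h3 : Le c2 c3 = true)
    (hu : u ∈ spn (ix s) ls) :
    u = 0 ∨ ∀ x, RcJ R θ s T (mI cb) (mI c2) x u → x ∉ BQ 3 θ (R.deg 0) T 3 s := by
  obtain ⟨h4, h5, h6, h7⟩ := H.id hi
  exact or_iff_not_imp_left.2 fun h8 x hx => H.wd.ne h5 h4.le hx (Le.mI h3) (j_le h6)
    fun h9 => h8 (h7 u hu (mI_top ▸ h9))

/-- the classes are independent modulo the cube of `v_1` -/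
theorem htInd (c1 cb c3 : CN) (ls : List (List Tr)) (hc : E.ge s T c c1 cb c2 ls = true)
    (hm : Le cb m = true) (hi : E.id s T [(0, 0)] c3 ls = true) (h3 : Le c2 c3 = true)
    (h : HT R θ s T c2 m n) : HT R θ s T c m n :=
  H.htGen c1 cb ls hc hm (fun _ => H.ne_of hi h3) h

/-! ### existence -/

/-- **a cochain with given leading terms whose differential has filtration `n`** -/
theorem exN (c' m m' : CN) (hc : E.cl s T c c' m' l = true) (h1 : Le m c = true)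
    (h2 : Le m c2 = true) (h3 : Le m' c2 = true) (h : HT R θ (s + 1) T c' m n) :
    LN R θ ix s T c c2 n l := by
  obtain ⟨h4, h5, h6, -, h8, y, hy, h9⟩ := H.cl hc
  obtain ⟨z, hz, h10⟩ := H.wd.exN h5 h4 (inv_mI _) (inv_mI _) (inv_mI c2) (Vis.mul h6) (Le.mI h1)
    (Le.mI h2) (h8.trans (Le.mI h3)) h9 h
  exact ⟨z, hz, RJ.congr h10 (Rs.mem_BdJ_of_ZA (by simpa using Rs.ZA_mono (Le.mI h3) hy))⟩

/-- the same with all terms in the window -/
theorem exN' (c' m : CN) (hc : E.cy s T c c' l = true) (h1 : Le m c = true)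
    (h2 : Le m c2 = true) (h3 : Le c' c2 = true) (h : HT R θ (s + 1) T c' m n) :
    LN R θ ix s T c c2 n l :=
  have h4 := H.cy hc
  H.wd.exN h4.2.1 h4.1 (inv_mI _) (inv_mI _) (inv_mI c2) (Vis.mul h4.2.2.1) (Le.mI h1)
    (Le.mI h2) (Le.mI h3) h4.2.2.2 h

theorem exC (h : LN R θ ix s T c c2 [] l) : ∃ x, RL R θ ix s T c c2 x l :=
  H.wd.exC (inv_mI c2) (mI_nil ▸ h)

/-- **existence of a class with given leading term** -/
theorem ex (k : ℕ) (l : List Tr) (hc : E.cl s T [(0, k)] [(3, k + 3)] [(0, k + 1)] l = true)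
    (h : HT R θ (s + 1) T [(3, k + 3)] [(0, k + 1)] []) :
    ∃ x, Rc R θ s T k (k + 1) x (vL (ix s) l) :=
  (H.exC (H.exN _ _ _ hc (by simp [Le, inU_one]) (Le.refl _) (Le.refl _) h)).imp
    fun _ h => h.rc (Le.refl _) (Le.refl _)

theorem ln (h : RL R θ ix s T c c' x l) (h1 : Le c c1 = true) (h2 : Le c' c2 = true) :
    LN R θ ix s T c1 c2 n l :=
  SpJ_le (inf_le_right.trans ZC_le_XN) (H.wd.bz.trans ZC_le_XN) (h.lz (mem_top x) h1 h2)

/-! ### generators -/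

theorem hgTop (hc : Le c [(0, T + 1)] = true) : HG R θ T c 𝒵 :=
  H.top (H.wd.xsZ (N := ⊥)) hc fun _ hx hx' => mem_sup_right (H.wd.zc_bot' hx hx')

theorem hgStep (c1 cb : CN) (ls : List (List Tr)) (hc : E.ge s T c c1 cb c2 ls = true)
    (hl : All (LZ R θ ix T cb c2 𝒵) ls) (h : HG R θ T c2 𝒵) : HG R θ T c 𝒵 := by
  obtain ⟨h1, h2, h3, h4, h5, h6⟩ := H.ge hc
  exact H.wd.hx_step h2 h1 H.wd.xsZ (inv_mI _) (inv_mI _) (inv_mI _) (inv_mI _) h4 h3 bot_le h5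
    bot_le (WdJ.bf_bq.trans le_sup_right) (h6.trans (sup_le_sup_right ((spn_le hl).trans (SpJ_le
      (inf_le_inf_right _ le_sup_left) (le_inf le_sup_right H.wd.bz))) _)) h

/-- **membership** -/
theorem mem (ls : List (List Tr)) (h : RL R θ ix s T c c' x l) (hc : E.mb s T c c' ls l = true)
    (hl : All (LZ R θ ix T c c' 𝒵) ls) (hg : HG R θ T c' 𝒵) :
    x ∈ 𝒵 ⊔ BQ 3 θ (R.deg 0) T 3 s := by
  obtain ⟨h1, h2, h3, h4⟩ := H.mb hc
  exact H.wd.mem h2 h1.le h (inv_mI _) (inv_mI _) (Vis.mul h3)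
    (sup_le_sup_right (spn_le hl) _ h4) hg

theorem memB (h : RL R θ ix s T c c' x l) (hc : E.mb s T c c' [] l = true)
    (hg : HG R θ T c' (⊥ : AddSubgroup (G 0 → Cob Laz s))) : x ∈ BQ 3 θ (R.deg 0) T 3 s := by
  simpa using H.mem [] h hc .nil hg

/-! ### sources of differentials -/

theorem hdStep (c1 cb : CN) (ls : List (List Tr)) (hc : E.ge s T c c1 cb c2 ls = true)
    (h1 : Le n c1 = true) (h2 : Le n c2 = true) (h3 : Le n' n = true)
    (hl : All (LN R θ ix s T cb c2 n') ls) (h : HD R θ s T c2 n m n') : HD R θ s T c n m n' := by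
  obtain ⟨h4, h5, h6, h7, h8, h9⟩ := H.ge hc
  exact H.wd.hx_step h5 h4 H.wd.xsN (inv_mI _) (inv_mI _) (inv_mI _) (inv_mI _) h7 h6 (Le.mI h1) h8
    (Le.mI h2) ((WdJ.bf_bq.trans (H.wd.bz.trans ZC_le_XN)).trans le_sup_right)
    (h9.trans (sup_le_sup_right ((spn_le hl).trans
      (SvJ_mono (le_inf le_sup_right (XN_mono (Le.mI h3))) le_rfl le_rfl)) _)) h

/-! ### non-vanishing -/

/-- **non-vanishing modulo the cube of `v_1`** -/
theorem notJ (c2 : CN) (ls : List (List Tr)) (h : RL R θ ix s T c c' x l) (h1 : Le c' c2 = true)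
    (hz : 𝒵 ≤ LdJ R θ T (mI [(0, 0)]) (mI c2) (spn (ix s) ls))
    (hc : E.nm s T [(0, 0)] c2 ls l = true) : x ∉ 𝒵 ⊔ BQ 3 θ (R.deg 0) T 3 s := fun hx => by
  obtain ⟨h2, h3, h4, h5⟩ := H.nm hc
  obtain ⟨z, h6, e, he, rfl⟩ := mem_sup.1 hx
  obtain ⟨u, hu, h7⟩ := hz h6
  refine H.wd.ne h3 h2.le ((RcJ.mono h (mI_top ▸ le_top) (Le.mI h1)).sub h7) le_rfl (j_le h4)
    (fun h8 => h5 ?_) (by simpa using he)
  exact sub_add_cancel (vL (ix s) l) u ▸ add_mem (mem_sup_right (mI_top.symm ▸ h8)) (mem_sup_left hu)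

theorem neJ (c2 : CN) (h : RL R θ ix s T c c' x l) (h1 : Le c' c2 = true)
    (hc : E.nm s T [(0, 0)] c2 [] l = true) : x ∉ BQ 3 θ (R.deg 0) T 3 s := by
  simpa using H.notJ (𝒵 := ⊥) c2 [] h h1 bot_le hc

theorem sjNe (c2 : CN) (h1 : Le c' c2 = true) : SJ R θ ix T c c' (E.nm s T [(0, 0)] c2 [])
    fun x : G 0 → Cob Laz s => x ∉ BQ 3 θ (R.deg 0) T 3 s := fun _ _ hc h => H.neJ c2 h h1 hc

theorem za (h : E.oks s T n ls = true) : spn (ix s) ls ≤ ZA _ (mI n) :=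
  spn_le fun m hm i => (H.pa (List.all_eq_true.1 h m hm) i).2

/-- **non-vanishing from the sources of differentials** -/
theorem notD {x : G 0 → Cob Laz (s + 1)} {𝒵 : AddSubgroup (G 0 → Cob Laz (s + 1))} (c2 : CN)
    (ls : List (List Tr)) (h : RL R θ ix (s + 1) T c c' x l) (hd : HD R θ s T [(0, 0)] n m n')
    (hz : 𝒵 ≤ LdJ R θ T (mI c) (mI c') (spn (ix (s + 1)) ls)) (h1 : Vis c c' = true)
    (h2 : Le c' n = true) (h3 : Le c m = true) (h4 : Le c' c2 = true) (h5 : Le n' c2 = true)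
    (h6 : E.oks (s + 1) T n (l :: ls) = true) (hc : E.nm (s + 1) T m c2 ls l = true) :
    x ∉ 𝒵 ⊔ BQ 3 θ (R.deg 0) T 3 (s + 1) := fun hx => by
  obtain ⟨h7, h8, h9, h10⟩ := H.nm hc
  obtain ⟨z, h11, e, he, rfl⟩ := mem_sup.1 hx
  obtain ⟨u, hu, h12⟩ := hz h11
  refine h10 (by simpa using add_mem (mem_sup_right (H.wd.bd_of h8 (by omega) (RcJ.sub h h12)
    (inv_mI _) (inv_mI n) (inv_mI m) (inv_mI c2) (Vis.mul h1) (Le.mI h2) (Le.mI h3) (Le.mI h4)
    (Le.mI h5) (Vis.mul h9) (H.za h6 (sub_mem (mem_spn List.mem_cons_self) (mem_sup_right hu)))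
    (mI_top ▸ hd) (by simpa using he))) (mem_sup_left hu))

theorem neD {x : G 0 → Cob Laz (s + 1)} (c2 : CN) (h : RL R θ ix (s + 1) T c c' x l)
    (hd : HD R θ s T [(0, 0)] n m n') (h1 : Vis c c' = true) (h2 : Le c' n = true)
    (h3 : Le c m = true) (h4 : Le c' c2 = true) (h5 : Le n' c2 = true)
    (h6 : E.oks (s + 1) T n [l] = true) (hc : E.nm (s + 1) T m c2 [] l = true) :
    x ∉ BQ 3 θ (R.deg 0) T 3 (s + 1) := by
  simpa using H.notD (𝒵 := ⊥) c2 [] h hd bot_le h1 h2 h3 h4 h5 h6 hc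

theorem sjNeD (c2 : CN) (hd : HD R θ s T [(0, 0)] n m n') (h1 : Vis c c' = true)
    (h2 : Le c' n = true) (h3 : Le c m = true) (h4 : Le c' c2 = true) (h5 : Le n' c2 = true) :
    SJ R θ ix T c c' (fun l => grd (E.oks (s + 1) T n [l]) (E.nm (s + 1) T m c2 [] l))
      fun x : G 0 → Cob Laz (s + 1) => x ∉ BQ 3 θ (R.deg 0) T 3 (s + 1) :=
  fun _ _ hc h => H.neD c2 h hd h1 h2 h3 h4 h5 (grd_spec hc).1 (grd_spec hc).2

/-- **no long differential hits the level `k`** -/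
theorem nb (c1 c3 : CN) (ls : List (List Tr))
    (hc : E.ge s T [(0, k)] c1 [(0, k - 2)] [(0, k + 1)] ls = true)
    (hi : E.id s T [(0, 0)] c3 ls = true) (h3 : Le [(0, k + 1)] c3 = true) : Nb R θ s T k := by
  obtain ⟨h1, h2, h4, -, -, h5⟩ := H.ge hc
  obtain ⟨-, -, h6, h7⟩ := H.id hi
  rw [mI_pow] at h4
  rw [mI_pow, mI_pow, mI_pow] at h5
  exact H.wd.nb h2 rfl h1 (inv_mI _) h4 (j_le h6) (mI_pow (k + 1) ▸ Le.mI h3) h5 (mI_top ▸ h7)

/-! ### changing representatives -/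

theorem idJ (l' : List Tr) (h : RL R θ ix s T c c' x l)
    (hc : E.mb s T c c' [] (List.append l (twL l')) = true) : RL R θ ix s T c c' x l' := by
  refine RcJ.congr h ?_
  have h1 := (H.mb hc).2.2.2
  have h2 : (3 : ℕ) • vL (ix s) l' = 0 := funext fun g => by
    rw [Pi.smul_apply, nsmul_eq_mul]
    exact mul_eq_zero_of_left (CharP.cast_eq_zero A 3) _
  rwa [spn, bot_sup_eq, vL_append, vL_twL, eq_neg_of_add_eq_zero_left
    ((succ_nsmul _ 2).symm.trans h2), ← sub_eq_add_neg] at h1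

theorem upJ (h : RL R θ ix s T c c' x l) (h1 : Vis c c' = true) (h2 : Le m c = true)
    (h3 : Le c' m = true) (hc : E.bn s T (okJ (E.D.L s) T m l) = true) :
    RL R θ ix s T m c' x l :=
  have h4 := H.bn hc
  H.wd.up h4.2.2.1 h4.1 h (inv_mI _) (inv_mI _) (inv_mI _) (Vis.mul h1) (Le.mI h2) (Le.mI h3)
    (H.pa h4.2.2.2)

/-- improving the precision -/
theorem extL (c1 : CN) (ls : List (List Tr)) (h : RL R θ ix s T c c' x l)
    (h1 : E.cy s T c c1 l = true) (h2 : E.ge s T c' c1 c c2 ls = true) :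
    ∃ v ∈ spn (ix s) ls, RcJ R θ s T (mI c) (mI c2) x (vL (ix s) l + v) :=
  have h3 := H.cy h1
  H.wd.ext h3.2.1 h3.1 h (inv_mI _) (inv_mI _) (Vis.mul h3.2.2.1) h3.2.2.2 (H.ge h2).2.2.2.2.2

/-- improving the precision modulo known classes -/
theorem extZ (c1 : CN) (ls : List (List Tr)) (h : RL R θ ix s T c c' x l)
    (h1 : E.cy s T c c1 l = true) (h2 : E.ge s T c' c1 c c2 ls = true)
    (hl : All (LZ R θ ix T c c2 𝒵) ls) : ∃ z ∈ 𝒵, RL R θ ix s T c c2 (x - z) l := by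
  obtain ⟨v, hv, h3⟩ := H.extL c1 ls h h1 h2
  obtain ⟨z, hz, h4⟩ := spn_le hl hv
  exact ⟨z, hz, by simpa using h3.sub h4⟩

theorem ext0 (c1 : CN) (h : RL R θ ix s T c c' x l) (h1 : E.cy s T c c1 l = true)
    (h2 : E.ge s T c' c1 c c2 [] = true) : RL R θ ix s T c c2 x l := by
  obtain ⟨_, rfl, h3⟩ := H.extZ (𝒵 := ⊥) c1 [] h h1 h2 .nil
  rwa [sub_zero] at h3

/-! ### all classes -/

theorem ajOf (h : HG R θ T c 𝒵) (hP : ∀ x ∈ 𝒵 ⊔ BQ 3 θ (R.deg 0) T 3 s, P x) : AJ R θ T c P :=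
  (H.wd.al_of h (.mem le_sup_right)).imp hP

theorem ajTop (hc : Le c [(0, T + 1)] = true) (hP : ∀ x ∈ BQ 3 θ (R.deg 0) T 3 s, P x) :
    AJ R θ T c P := H.ajOf (𝒵 := ⊥) (H.hgTop hc) fun x hx => hP x (by simpa using hx)

omit H [∀ q, Fintype (G q)] [DecidableEq (G 0)] [Fact (Nat.Prime 3)] in
theorem spn_append : spn (ix s) (List.append ls' ls) ≤ spn (ix s) ls' ⊔ spn (ix s) ls :=
  spn_le fun _ hm => (List.mem_append.1 hm).elim (fun h => mem_sup_left (mem_spn h))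
    fun h => mem_sup_right (mem_spn h)

theorem ajGen (c1 cb : CN) (ls' ls : List (List Tr))
    (hc : E.ge s T c c1 cb c2 (List.append ls' ls) = true) (hl : All (LZ R θ ix T cb c2 𝒵) ls')
    (hP : Cq 𝒵 P) (hS : ∀ u ∈ spn (ix s) ls, u = 0 ∨ ∀ x, RcJ R θ s T (mI cb) (mI c2) x u → P x)
    (h : AJ R θ T c2 P) : AJ R θ T c P := by
  obtain ⟨h1, h2, h3, h4, h5, h6⟩ := H.ge hc
  exact H.wd.al_step h2 h1 (inv_mI _) (inv_mI _) (inv_mI _) (inv_mI _) h4 h3 h5 hP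
    (h6.trans (sup_le_sup_right (spn_append.trans (sup_le_sup_right (spn_le hl) _)) _)) hS h

/-- one more step, modulo known classes -/
theorem ajStepM (c1 cb : CN) (ls' ls : List (List Tr))
    (hc : E.ge s T c c1 cb c2 (List.append ls' ls) = true) (hl : All (LZ R θ ix T cb c2 𝒵) ls')
    (hP : Cq 𝒵 P) (hS : SJ R θ ix T cb c2 C P) (hz : nzC ls C = true) (h : AJ R θ T c2 P) :
    AJ R θ T c P := H.ajGen c1 cb ls' ls hc hl hP (fun _ hu => (nzC_spec hz hu).imp_right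
  fun ⟨m, h1, h2⟩ x hx => hS m x h1 (by rwa [← h2] at hx)) h

omit H [∀ q, Fintype (G q)] [DecidableEq (G 0)] [Fact (Nat.Prime 3)] in
theorem cq_bot : Cq ⊥ P := fun z hz x h => by rwa [mem_bot.1 hz, sub_zero] at h

theorem ajStep (c1 cb : CN) (ls : List (List Tr)) (hc : E.ge s T c c1 cb c2 ls = true)
    (hS : SJ R θ ix T cb c2 C P) (hz : nzC ls C = true) (h : AJ R θ T c2 P) : AJ R θ T c P :=
  H.ajStepM c1 cb [] ls hc .nil cq_bot hS hz h

theorem ajSkip (c1 cb : CN) (hc : E.ge s T c c1 cb c2 [] = true) (h : AJ R θ T c2 P) :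
    AJ R θ T c P := H.ajGen c1 cb [] [] hc .nil cq_bot (fun _ h => .inl h) h

/-- raising the filtration in a test -/
theorem sjUp (h1 : Vis c c' = true) (h2 : Le m c = true) (h3 : Le c' m = true)
    (hS : SJ R θ ix T m c' C P) :
    SJ R θ ix T c c' (fun l => grd (E.bn s T (okJ (E.D.L s) T m l)) (C l)) P :=
  fun l x hc hx => hS l x (grd_spec hc).2 (H.upJ hx h1 h2 h3 (grd_spec hc).1)

/-- improving the precision with undetermined coefficients -/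
theorem sjExtM (c1 : CN) (ls' ls : List (List Tr))
    (hc : E.ge s T c' c1 c c2 (List.append ls' ls) = true) (hl : All (LZ R θ ix T c c2 𝒵) ls')
    (hP : Cq 𝒵 P) (hS : SJ R θ ix T c c2 C P) : SJ R θ ix T c c'
      (fun l => grd (E.cy s T c c1 l) (allC ls fun m => C (List.append l m))) P :=
    fun l x h1 hx => by
  obtain ⟨v, hv, h2⟩ := H.extL c1 _ hx (grd_spec h1).1 hc
  obtain ⟨_, h3, u, hu, rfl⟩ := mem_sup.1 (spn_append hv)
  obtain ⟨z, hz, h4⟩ := spn_le hl h3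
  obtain ⟨m, h5, rfl⟩ := allC_spec (grd_spec h1).2 hu
  refine hP z hz x (hS _ _ h5 ?_)
  have h6 := h2.sub h4
  rwa [add_left_comm, add_sub_cancel_left, ← vL_append] at h6

theorem sjExt (c1 : CN) (ls : List (List Tr)) (hc : E.ge s T c' c1 c c2 ls = true)
    (hS : SJ R θ ix T c c2 C P) : SJ R θ ix T c c'
      (fun l => grd (E.cy s T c c1 l) (allC ls fun m => C (List.append l m))) P :=
  H.sjExtM c1 [] ls hc .nil cq_bot hS

/-- a test for membership -/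
theorem sjMem (ls : List (List Tr)) (hl : All (LZ R θ ix T c c' 𝒵) ls) (hg : HG R θ T c' 𝒵) :
    SJ R θ ix T c c' (E.mb s T c c' ls) (· ∈ 𝒵 ⊔ BQ 3 θ (R.deg 0) T 3 s) :=
  fun _ _ hc hx => H.mem ls hx hc hl hg

end WxJ

end Vale.Agent.P236JX

end
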