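import Vale.Agent.P236JX.Lst

/-!
# P236JX / Top : statements about cohomology classes from checks in general windows
-/

noncomputable section

namespace Vale.Agent.P236JX

open MvPolynomial Vale.Agent.P236EL Vale.Agent.P236KE Vale.Agent.P236K2 Vale.Agent.P236K3
  Vale.Agent.P236JF Vale.Agent.P236JR Vale.Agent.P236J3 Vale.Agent.P236F Vale.Agent.P251.F
  Vale.Agent.P236SY AddSubgroup

namespace JD

variable (E : JD) (s T : Nat)

/-- cycles of the window `c`, `c1` are listed vectors modulo boundaries of the window `cb`, `c2` -/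
def ge (c c1 cb c2 : CN) (ls : List (List Tr)) : Bool :=
  E.bn s T (grd (Vis c c1) (grd (Le c cb) (grd (Vis cb c2) (grd (E.oks s T cb ls)
    (E.D.genJ s T c c1 cb c2 (E.vcs s c2 ls))))))
/-- the lists are independent modulo boundaries -/
def id (c c' : CN) (ls : List (List Tr)) : Bool :=
  E.bn s T (grd (Vis c c') (grd (E.oks s T c ls) (E.ind s T c c' ls)))
/-- membership -/
def mb (c c' : CN) (ls : List (List Tr)) (l : List Tr) : Bool :=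
  E.bn s T (grd (Vis c c') (grd (E.oks s T c (l :: ls))
    (E.D.inJ s T c c' (E.vcs s c' ls) (vcJ (E.D.L s) c' l))))
/-- non-membership -/
def nm (c c' : CN) (ls : List (List Tr)) (l : List Tr) : Bool :=
  E.bn s T (grd (Vis c c') (grd (E.oks s T c (l :: ls))
    (E.noL s T c c' (E.vcs s c' ls) (vcJ (E.D.L s) c' l))))
/-- the list is a cycle -/
def cy (c c' : CN) (l : List Tr) : Bool := force (Nat.succ s) fun s' =>
  E.bn s T (grd (Vis c c') (grd (okJ (E.D.L s) T c l)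
    (E.D.isZJ s' T c c' (E.D.dlJ s s' 0 T T c c' (vcJ (E.D.L s) c' l)))))
/-- the list is a cycle up to terms in `m` -/
def cl (c c' m : CN) (l : List Tr) : Bool := force (Nat.succ s) fun s' =>
  E.bn s T (grd (Vis c c') (grd (Le m c) (grd (Le c' m) (grd (okJ (E.D.L s) T c l)
    ((E.D.dlJ s s' 0 T T c c' (vcJ (E.D.L s) c' l)).run fun p =>
      grd (E.D.isZJ s' T c m (cst' p)) (E.D.inJ s' T m c' [] (cst' p)))))))

end JD

variable [Fact (Nat.Prime 3)] {G : ℕ → Type} [∀ q, Fintype (G q)] (R : Rs 3 K G)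
  (θ : G 0 → G 0 → Cob Laz 1) (ix : ∀ q, G (q + 1) → ℕ) (s T : ℕ)

/-- coboundaries of filtration `c` come from filtration `m` modulo filtration `n` -/
def HT (c m n : CN) : Prop := Ax (BQ 3 θ (R.deg 0) T 3 s) (mI c)
  (· ∈ BF p3 θ (R.deg 0) T (mI m) s ⊔ Fl p3 _ s (mI n))

/-- cochains of filtration `c` with differential in `n` have filtration `m` modulo cochains with
differential in `n'` -/
def HD (c n m n' : CN) : Prop := Ax (XN R θ s T (mI n)) (mI c)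
  (· ∈ Fl p3 _ s (mI m) ⊔ XN R θ s T (mI n'))

/-- the list represents a cochain whose differential has filtration `n` -/
def LN (c c' n : CN) (l : List Tr) : Prop :=
  vL (ix s) l ∈ SvJ R (mI c) (mI c') T (XN R θ s T (mI n))

/-- the list represents the class of `x` -/
abbrev RL (c c' : CN) (x : G 0 → Cob Laz s) (l : List Tr) : Prop :=
  RcJ R θ s T (mI c) (mI c') x (vL (ix s) l)

variable {s}

/-- cocycles of filtration `c` are generated by `𝒵` -/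
def HG (c : CN) (𝒵 : AddSubgroup (G 0 → Cob Laz s)) : Prop :=
  Ax (ZC 3 θ (R.deg 0) T 3 s) (mI c) (· ∈ 𝒵 ⊔ BQ 3 θ (R.deg 0) T 3 s)

/-- all classes of filtration `c` satisfy `P` -/
def AJ (c : CN) (P : (G 0 → Cob Laz s) → Prop) : Prop := AlJ R θ T P (mI c)

/-- the test on the terms of a class implies `P` -/
def SJ (c c' : CN) (C : List Tr → Bool) (P : (G 0 → Cob Laz s) → Prop) : Prop :=
  ∀ m x, C m = true → RL R θ ix s T c c' x m → P x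

/-- the list represents an element of `𝒵` -/
def LZ (c c' : CN) (𝒵 : AddSubgroup (G 0 → Cob Laz s)) (l : List Tr) : Prop :=
  vL (ix s) l ∈ SpJ R θ (mI c) (mI c') T 𝒵

/-- classes represented by elements of `S` -/
def LdJ (K K' : Ideal A) (S : AddSubgroup (G (s + 1) → A)) : AddSubgroup (G 0 → Cob Laz s) where
  carrier := {z | ∃ u ∈ S, RcJ R θ s T K K' z u}
  zero_mem' := ⟨0, zero_mem _, RcJ.zero⟩
  add_mem' := fun ⟨_, h1, h2⟩ ⟨_, h3, h4⟩ => ⟨_, add_mem h1 h3, h2.add h4⟩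
  neg_mem' := fun ⟨_, h1, h2⟩ => ⟨_, neg_mem h1, h2.neg⟩

variable {R θ ix T} {c c' c1 c2 c3 cb m n n' : CN} {l l' : List Tr} {ls ls' : List (List Tr)}
  {x : G 0 → Cob Laz s} {𝒵 𝒵' : AddSubgroup (G 0 → Cob Laz s)} {P P' : (G 0 → Cob Laz s) → Prop}
  {C C' : List Tr → Bool} {a b j k : ℕ}

/-- a property of all members of a list -/
def All {α : Type} (p : α → Prop) (l : List α) : Prop := ∀ a ∈ l, p a

omit [Fact (Nat.Prime 3)] in
theorem All.nil {α : Type} {p : α → Prop} : All p [] := fun _ h => nomatch h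

omit [Fact (Nat.Prime 3)] in
theorem All.cons {α : Type} {p : α → Prop} {a : α} {l : List α} (h : p a) (h' : All p l) :
    All p (a :: l) := List.forall_mem_cons.2 ⟨h, h'⟩

theorem RL.mono (h : RL R θ ix s T c c' x l) (h1 : Le c c1 = true) (h2 : Le c' c2 = true) :
    RL R θ ix s T c1 c2 x l := RcJ.mono h (Le.mI h1) (Le.mI h2)

theorem RL.rc (h : RL R θ ix s T c c' x l) (h1 : Le c [(0, a)] = true)
    (h2 : Le c' [(0, b)] = true) : Rc R θ s T a b x (vL (ix s) l) :=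
  RcJ.rc h (mI_pow a ▸ Le.mI h1) (mI_pow b ▸ Le.mI h2)

theorem RL.of (h : Rc R θ s T a b x (vL (ix s) l)) : RL R θ ix s T [(0, a)] [(0, b)] x l :=
  h.rcJ (mI_pow a).ge (mI_pow b).ge

theorem RL.lz (h : RL R θ ix s T c c' x l) (hx : x ∈ 𝒵) (h1 : Le c c1 = true)
    (h2 : Le c' c2 = true) : LZ R θ ix T c1 c2 𝒵 l := ⟨x, hx, h.mono h1 h2⟩

theorem RL.ld (h : RL R θ ix s T c c' x l) (hl : l ∈ ls) (h1 : Le c c1 = true)
    (h2 : Le c' c2 = true) : x ∈ LdJ R θ T (mI c1) (mI c2) (spn (ix s) ls) :=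
  ⟨_, mem_spn hl, h.mono h1 h2⟩

theorem LN.mono (h : LN R θ ix s T c c' n l) (h1 : Le c c1 = true) (h2 : Le c' c2 = true)
    (h3 : Le n n' = true) : LN R θ ix s T c1 c2 n' l :=
  SvJ_mono (XN_mono (Le.mI h3)) (Le.mI h1) (Le.mI h2) h

theorem HT.fin (h : Le c n = true) : HT R θ s T c m n :=
  fun _ _ hx => mem_sup_right (Fl_mono p3 (Le.mI h) hx)

theorem HT.mono {c₀ m₀ n₀ : CN} (h : HT R θ s T c m n) (h1 : Le c₀ c = true) (h2 : Le m m₀ = true)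
    (h3 : Le n n₀ = true) : HT R θ s T c₀ m₀ n₀ := Ax.mono h le_rfl (Le.mI h1) fun _ _ h =>
  sup_le_sup (BF_mono p3 _ _ _ (Le.mI h2) _) (Fl_mono p3 (Le.mI h3)) h

theorem HD.fin (h : Le c m = true) : HD R θ s T c n m n' :=
  fun _ _ hx => mem_sup_left (Fl_mono p3 (Le.mI h) hx)

theorem HD.ds (h : HD R θ s T [(0, j)] [(0, k)] [(0, a)] [(0, k + 1)]) : Ds R θ s j a k T := by
  rw [HD, mI_pow, mI_pow, mI_pow, mI_pow] at h
  exact h.ds

theorem HD.of (h : Ds R θ s j a k T) : HD R θ s T [(0, j)] [(0, k)] [(0, a)] [(0, k + 1)] := by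
  rw [HD, mI_pow, mI_pow, mI_pow, mI_pow]
  exact h.ax

theorem HG.mono (h : HG R θ T c 𝒵) (h1 : Le c' c = true)
    (h2 : 𝒵 ≤ 𝒵' ⊔ BQ 3 θ (R.deg 0) T 3 s) : HG R θ T c' 𝒵' :=
  Ax.mono h le_rfl (Le.mI h1) fun _ _ h => sup_le h2 le_sup_right h

theorem HG.le (h : HG R θ T c 𝒵) (h1 : Le c' c = true) : HG R θ T c' 𝒵 := h.mono h1 le_sup_left

theorem hG_iff : HG R θ T [(0, k)] 𝒵 ↔ Hg R θ k T 𝒵 := by rw [HG, mI_pow, hg_iff]

theorem HG.all (h : HG R θ T [(0, 0)] 𝒵) :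
    ZC 3 θ (R.deg 0) T 3 s ≤ 𝒵 ⊔ BQ 3 θ (R.deg 0) T 3 s := (hG_iff.1 h).le

theorem HG.van (h : HG R θ T [(0, 0)] (⊥ : AddSubgroup (G 0 → Cob Laz s))) :
    ZC 3 θ (R.deg 0) T 3 s ≤ BQ 3 θ (R.deg 0) T 3 s := (hG_iff.1 h).van

theorem aJ_iff : AJ R θ T [(0, k)] P ↔ Al R θ T k P := by rw [AJ, mI_pow, alJ_iff]

theorem AJ.le (h : AJ R θ T c P) (h1 : Le c' c = true) : AJ R θ T c' P := AlJ.le h (Le.mI h1)

theorem AJ.all (h : AJ R θ T [(0, 0)] P) : ∀ x ∈ ZC 3 θ (R.deg 0) T 3 s, P x := (aJ_iff.1 h).all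

theorem AJ.hg (h : AJ R θ T c (· ∈ 𝒵 ⊔ BQ 3 θ (R.deg 0) T 3 s)) : HG R θ T c 𝒵 :=
  AlJ.ax h (inv_mI c)

theorem SJ.or (h : SJ R θ ix T c c' C P) (h' : SJ R θ ix T c c' C' P) :
    SJ R θ ix T c c' (fun m => C m || C' m) P := fun m x hc hx =>
  (Bool.or_eq_true _ _ ▸ hc).elim (h m x · hx) (h' m x · hx)

theorem SJ.imp (h : SJ R θ ix T c c' C P) (h' : ∀ x, P x → P' x) : SJ R θ ix T c c' C P' :=
  fun m x hc hx => h' x (h m x hc hx)

theorem SJ.mono (h : SJ R θ ix T c1 c2 C P) (h1 : Le c c1 = true) (h2 : Le c' c2 = true) :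
    SJ R θ ix T c c' C P := fun m x hc hx => h m x hc (hx.mono h1 h2)

theorem SJ.of (h : Sd R θ ix T a b C P) (h1 : Le c [(0, a)] = true) (h2 : Le c' [(0, b)] = true) :
    SJ R θ ix T c c' C P := fun m x hc hx => h m x hc (hx.rc h1 h2)

theorem SJ.sd (h : SJ R θ ix T [(0, a)] [(0, b)] C P) : Sd R θ ix T a b C P :=
  fun m x hc hx => h m x hc (.of hx)

omit [Fact (Nat.Prime 3)] in
theorem j_le (h : Vis [(0, 0)] c = true) : Jr K 3 ≤ mI c := by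
  simpa [mI_top] using Vis.mul h

variable [DecidableEq (G 0)] {E : JD} {Tm s3 s4 : ℕ}

namespace WxJ

variable (H : WxJ R θ E ix Tm s3 s4)

include H

theorem ge (h : E.ge s T c c1 cb c2 ls = true) : s < E.Q ∧ (T : ℤ) ≤ E.T ∧
    mI c * Jr K 3 ≤ mI c1 ∧ mI c ≤ mI cb ∧ mI cb * Jr K 3 ≤ mI c2 ∧
      R.CyJ s T (mI c) (mI c1) ≤ spn (ix s) ls ⊔ R.BdJ s T (mI cb) (mI c2) := by
  obtain ⟨h1, h2, h3, h4⟩ := H.bn h
  obtain ⟨h5, h4⟩ := grd_spec h4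
  obtain ⟨h6, h4⟩ := grd_spec h4
  obtain ⟨h7, h4⟩ := grd_spec h4
  obtain ⟨h8, h4⟩ := grd_spec h4
  exact ⟨h1, h3, Vis.mul h5, Le.mI h6, Vis.mul h7,
    H.cx.gen h1 (add_zero _).symm h2 h5 h6 h7 (H.vrs h8) mem_map h4⟩

theorem id (h : E.id s T c c' ls = true) : s < E.Q ∧ (T : ℤ) ≤ E.T ∧ Vis c c' = true ∧
    ∀ u ∈ spn (ix s) ls, u ∈ R.BdJ s T (mI c) (mI c') → u = 0 := by
  obtain ⟨h1, h2, h3, h4⟩ := H.bn h
  obtain ⟨h5, h4⟩ := grd_spec h4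
  obtain ⟨h6, h4⟩ := grd_spec h4
  exact ⟨h1, h3, h5, fun _ => H.ind h1.le h2 h5 h6 h4⟩

theorem mb (h : E.mb s T c c' ls l = true) : s < E.Q ∧ (T : ℤ) ≤ E.T ∧ Vis c c' = true ∧
    vL (ix s) l ∈ spn (ix s) ls ⊔ R.BdJ s T (mI c) (mI c') := by
  obtain ⟨h1, h2, h3, h4⟩ := H.bn h
  obtain ⟨h5, h4⟩ := grd_spec h4
  obtain ⟨h6, h4⟩ := grd_spec h4
  rw [JD.oks, List.all_cons, Bool.and_eq_true] at h6
  exact ⟨h1, h3, h5,
    H.cx.inB h1.le (add_zero _).symm h2 h5 (H.vrs h6.2) mem_map (H.vr h6.1) h4⟩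

theorem nm (h : E.nm s T c c' ls l = true) : s < E.Q ∧ (T : ℤ) ≤ E.T ∧ Vis c c' = true ∧
    vL (ix s) l ∉ spn (ix s) ls ⊔ R.BdJ s T (mI c) (mI c') := by
  obtain ⟨h1, h2, h3, h4⟩ := H.bn h
  obtain ⟨h5, h4⟩ := grd_spec h4
  obtain ⟨h6, h4⟩ := grd_spec h4
  rw [JD.oks, List.all_cons, Bool.and_eq_true] at h6
  exact ⟨h1, h3, h5, fun h => H.noL h1.le h2 h5 (H.vrs h6.2) (H.vr h6.1) h4 (sup_le_sup_right
    (spn_le fun m hm => subset_closure (List.mem_map_of_mem hm)) _ h)⟩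

theorem cy (h : E.cy s T c c' l = true) : s < E.Q ∧ (T : ℤ) ≤ E.T ∧ Vis c c' = true ∧
    vL (ix s) l ∈ R.CyJ s T (mI c) (mI c') := by
  rw [JD.cy, force_eq] at h
  obtain ⟨h1, h2, h3, h4⟩ := H.bn h
  obtain ⟨h5, h4⟩ := grd_spec h4
  obtain ⟨h6, h4⟩ := grd_spec h4
  exact ⟨h1, h3, h5, H.cx.cy h1 (add_zero _).symm rfl h2 h5 (Le.refl _) (H.vr h6) h4⟩

theorem cl (h : E.cl s T c c' m l = true) : s < E.Q ∧ (T : ℤ) ≤ E.T ∧ Vis c c' = true ∧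
    mI m ≤ mI c ∧ mI c' ≤ mI m ∧
      ∃ y ∈ ZA _ (mI m), vL (ix s) l - y ∈ R.CyJ s T (mI c) (mI c') := by
  rw [JD.cl, force_eq] at h
  obtain ⟨h1, h2, h3, h4⟩ := H.bn h
  obtain ⟨h5, h4⟩ := grd_spec h4
  obtain ⟨h6, h4⟩ := grd_spec h4
  obtain ⟨h7, h4⟩ := grd_spec h4
  obtain ⟨h8, h4⟩ := grd_spec h4
  have h9 := H.cx.sd h1 rfl h2 h5 (H.vr h8)
  obtain ⟨p, h10, h11⟩ := h9.run _ h4
  obtain ⟨h12, h13⟩ := grd_spec h11
  have h14 : VRJ _ _ T c c' (cst' p) _ := ⟨h9.hz, fun _ hk => ⟨p, h10, hk⟩⟩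
  obtain ⟨y, hy, h15⟩ := Rs.mem_BdJ.1 (H.cx.inB' h1 (add_zero _).symm h2
    (Vis.le' h5 h6 (Le.refl _)) (h14.up (H.cx.isZ h2 h5 h7 h14 h12)) h13)
  exact ⟨h1, h3, h5, Le.mI h6, Le.mI h7, y, fun i => (hy i).2, Rs.mem_CyJ.2
    ⟨sub_mem (H.pa h8) (Rs.PA_mono (Le.mI h6) hy), by rwa [map_sub]⟩⟩

end WxJ

end Vale.Agent.P236JX

end
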